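import Crest.Agent.X212.Clr59.Ys
import Crest.Agent.X212.Wrd81.Trf

/-! Parallel sections of the limits of a chart. -/

set_option autoImplicit false
set_option linter.unusedSectionVars false
noncomputable section
open Set Function Filter Topology MeasureTheory
open scoped ContDiff Manifold InnerProductSpace

namespace Crest.Agent.X212.Sym93
open An An.Pre Sob92 Wz78 Pj41 Nd18 Cyf70 Clr59
open Rdc90 (Bs Har bh A0)
open Rf65 (Psc ParY dz PY ctr)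
open Eqv71 (cj lg_refl inv_refl ad0)

variable {E3 : Type} [NormedAddCommGroup E3] [NormedSpace ℝ E3] [FiniteDimensional ℝ E3]
  [MeasurableSpace E3] [BorelSpace E3]
  {H3 : Type} [TopologicalSpace H3] {I3 : ModelWithCorners ℝ E3 H3} [I3.Boundaryless]
  {Y : Type} [TopologicalSpace Y] [ChartedSpace H3 Y] [IsManifold I3 ∞ Y] [T2Space Y]
  [MeasurableSpace Y] [BorelSpace Y] [SecondCountableTopology Y] [CompactSpace Y]
  {κ : Type} [Fintype κ] {lam : Type} [Fintype lam] {D : YD I3 Y κ lam} {β β' : YC Y κ lam}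
  {ξ : Y → β.m.A} {η : κ → Y → β.m.A} {ζ ζ' : Circle} {v : Y × ℝ → CL β.m.V β'.m.V}

theorem har_dec {b : ℕ} {ν : Fin b → κ → Y → ℝ} {r : ℝ} (S : Psc D.F ν r) (H : Bs D β)
    (hh : Har D β η) : (∀ i, ParY D β (ctr ν η i)) ∧ ∀ k y, η k y = ∑ i, ν i k y • ctr ν η i y := by
  obtain ⟨f, hf, e⟩ := Rd78.en_eq (Rd78.riem_Y H.ok) (Rd78.con_A0 H.adm) (Rd78.skew_A0 H.adm) hh.sm
    hh.P hh.ed hh.dv fun a c x => Rd78.curv_A0 H.ok H.adm H.flat a c x (hh.mem c x)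
  have := openPos D.F.toPre
  have c := (sm_dvg (F := D.F) hf).continuous.neg
  have e0 : ∀ x, 0 ≤ -dvg I3 D.F.e D.F.dv f x := fun x =>
    e x ▸ S.en_nonneg (fun b => hh.sm b x) (hh.P · x)
  have e1 := (c.ae_eq_iff_eq D.F.μ continuous_zero).1 ((integral_eq_zero_iff_of_nonneg e0
    (c.integrable_of_hasCompactSupport (.of_compactSpace _))).1 (by
      rw [integral_neg, integral_dvg hf fun _ => .of_compactSpace _, neg_zero]))
  have e2 := fun y => S.of_en (fun b => hh.sm b y) (hh.P · y) ((e y).trans (congrFun e1 y)).le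
  exact ⟨fun i => ⟨S.sm_ctr hh.sm i, fun y => sum_mem fun k _ => (β.m.gS y).smul_mem _ (hh.mem k y),
    fun k y => (e2 y).2 i k⟩, fun k y => (e2 y).1 k⟩

theorem par_tw {ν : κ → Y → ℝ} (p : ParY D β ξ) (s : ℝ) : ParY D (bh β (s • tY ν ξ) 0) ξ :=
  ⟨p.sm, p.mem, fun k y => .trans (congrArg (_ + ·) (by
    show adc (β.W (some k) y + opL (s • ν k y • ξ y)) (ξ y) = adc (β.W (some k) y) (ξ y)
    exact opL_inj (by simp [opL_adc, add_mul, mul_add]))) (p.par k y)⟩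

theorem alg_fix {a b : Type} [Fintype a] [Fintype b] [DecidableEq b] {v : CL (Eu a) (Eu b)}
    {W W' p : En b} {X : HS b} (e : W' ∘L v = W ∘L v) (hp : v ∘L trn v = p) (hX : p * opL X = opL X) (s : Skw W)
    (s' : Skw W') (sX : Skw (opL X)) : adc W' X = adc W X := by
  have h1 : W' * opL X = W * opL X := by
    rw [← hX, ← hp]
    exact ContinuousLinearMap.ext fun w => DFunLike.congr_fun e _
  have h2 := congrArg trn h1
  rw [trn_mul, trn_mul, Skw.trn sX, Skw.trn s, Skw.trn s', neg_mul_neg, neg_mul_neg] at h2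
  exact opL_inj (by rw [opL_adc, opL_adc, h1, h2])

variable (hD : D.OK) (A : D.Adm β) (A' : D.Adm β')
include hD A A'

theorem par_tr (e : Mod61.EqOn D.B D.Z univ (cy β) (cy β') v ζ) (p : ParY D β ξ) :
    ParY D β' (fun y => cj (v (y, 0)) (ξ y)) ∧ ((fun y => cj (v (y, 0)) (ξ y)) = 0 → ξ = 0) :=
  have l := (lg_refl hD.B hD.G isOpen_univ).of_ceq (ad0 A.adm) (ad0 A'.adm) e
  have k := Wrd81.lm_parS l (inv_refl isOpen_univ) ⟨(sm_fst p.sm).contMDiffOn,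
    fun x _ => p.mem x.1, fun a x _ => par_cyl A p a x⟩
  ⟨par_slice (contMDiffOn_univ.1 k.sm) (fun x => k.mem x trivial) (fun a x => k.par a x trivial) 0,
    fun z => funext fun y => ((l.me (y, 0) trivial).trn_cj (p.mem y)).symm.trans
      ((congrArg _ (congrFun z y)).trans (map_zero _))⟩

omit A A' in
theorem par_fix {m : Md Y (Option κ) lam} {W W' : m.Cn} {Φ Φ' : Y → m.V} {z z'}
    {v : Y × ℝ → CL β'.m.V m.V} (A : D.Adm ⟨m, W, Φ, z⟩) (A' : D.Adm ⟨m, W', Φ', z'⟩)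
    (e : Mod61.EqOn D.B D.Z univ (cy β') (cy ⟨m, W, Φ, z⟩) v ζ)
    (e' : Mod61.EqOn D.B D.Z univ (cy β') (cy ⟨m, W', Φ', z'⟩) v ζ') {ξ : Y → m.A}
    (p : ParY D ⟨m, W, Φ, z⟩ ξ) : ParY D ⟨m, W', Φ', z'⟩ ξ := by
  refine ⟨p.sm, p.mem, fun k y => .trans (congrArg (_ + ·) ?_) (p.par k y)⟩
  have h1 := (par0_iff ((IsConn.on A.adm.conn _).proj' hD.B)).2 e.W (y, 0) trivial (some k)
  have h2 := (par0_iff ((IsConn.on A'.adm.conn _).proj' hD.B)).2 e'.W (y, 0) trivial (some k)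
  have h3 := add_left_cancel (sub_left_inj.1 (h2.trans h1.symm))
  exact alg_fix h3 (e.m.uu' (y, 0) trivial)
    (g_p (p.mem y)) (A.adm.conn.sk _ (y, 0)) (A'.adm.conn.sk _ (y, 0)) (g_skw (p.mem y))

variable [ConnectedSpace Y]

omit A' in
theorem fin_par : Module.Finite ℝ (parS D β) :=
  .of_injective (LinearMap.proj (Classical.arbitrary Y) ∘ₗ (parS D β).subtype)
    ((injective_iff_map_eq_zero _).2 fun ξ e => Subtype.ext (funext fun y =>
      norm_eq_zero.1 ((norm_par hD A ξ.2 y _).trans (norm_eq_zero.2 e))))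

theorem dz_le (e : D.Eqv β β') : dz D β ≤ dz D β' := by
  obtain ⟨v, ζ, e⟩ := e
  have := fin_par hD A'
  rw [dz_def, dz_def]
  exact LinearMap.finrank_le_finrank_of_injective (f := ⟨⟨fun ξ => ⟨_, (par_tr hD A A' e ξ.2).1⟩,
    fun _ _ => Subtype.ext (funext fun _ => map_add _ _ _)⟩, fun _ _ => Subtype.ext
      (funext fun y => (cj (v (y, 0))).map_smul _ _)⟩) ((injective_iff_map_eq_zero _).2 fun ξ z =>
        Subtype.ext ((par_tr hD A A' e ξ.2).2 (congrArg Subtype.val z)))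

theorem dz_eqv (e : D.Eqv β β') : dz D β = dz D β' :=
  (dz_le hD A A' e).antisymm (dz_le hD A' A (let ⟨_, _, e⟩ := e
    ⟨_, _, Eqv71.ceq_symm_id hD.B hD.G isOpen_univ (ad0 A.adm) (ad0 A'.adm) e⟩))

omit hD A A' in
theorem par_mov {b : ℕ} (py : PY D b) (H : Bs D β) (hh : Har D β η) (h0 : η ≠ 0)
    {m : Md Y (Option κ) lam} {W W' : m.Cn} {Φ Φ' : Y → m.V} {z z'} {s s' : ℝ}
    {v : Y × ℝ → CL β.m.V m.V} (A : D.Adm ⟨m, W, Φ, z⟩) (A' : D.Adm ⟨m, W', Φ', z'⟩)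
    (e : Mod61.EqOn D.B D.Z univ (cy (bh β (s • η) 0)) (cy ⟨m, W, Φ, z⟩) v ζ)
    (e' : Mod61.EqOn D.B D.Z univ (cy (bh β (s' • η) 0)) (cy ⟨m, W', Φ', z'⟩) v ζ')
    (h1 : dz D ⟨m, W, Φ, z⟩ = 1) {ξ : Y → m.A} (p : ParY D ⟨m, W, Φ, z⟩ ξ) :
    ParY D ⟨m, W', Φ', z'⟩ ξ := by
  obtain ⟨ν, ρ, S⟩ := py.psc
  obtain ⟨h2, h3⟩ := har_dec S H hh
  obtain rfl | rfl := Nat.le_one_iff_eq_zero_or_eq_one.1 py.b1
  · exact (h0 (funext₂ fun k y => (h3 k y).trans (Fin.sum_univ_zero _))).elim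
  obtain ⟨ν, rfl⟩ : ∃ ν', ν = fun _ => ν' := ⟨ν 0, funext fun i => congrArg ν (i.eq_zero)⟩
  obtain ⟨ξ₀, p₀, rfl⟩ := (har_iff S H).1 hh
  obtain ⟨a1, a2⟩ := par_tr H.ok (bs_tw S H p₀ s).adm A e (par_tw p₀ s)
  obtain ⟨c, hc⟩ := (finrank_eq_one_iff_of_nonzero' (K := ℝ) (⟨_, a1⟩ : parS D ⟨m, W, Φ, z⟩)
    fun z => h0 ((congrArg (tY ν) (a2 (congrArg Subtype.val z))).trans (map_zero _))).1
      (dz_def.symm.trans h1) ⟨ξ, p⟩
  obtain rfl : _ = ξ := congrArg Subtype.val hc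
  exact (parS D ⟨m, W', Φ', z'⟩).smul_mem c
    (par_tr H.ok (bs_tw S H p₀ s').adm A' e' (par_tw p₀ s')).1

end Crest.Agent.X212.Sym93
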