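import Crest.Agent.X212.Sym93.Abs
import Crest.Agent.X212.An.CutR

/-! Symmetries of a regular solution with cuts. -/

set_option autoImplicit false
set_option linter.unusedSectionVars false
noncomputable section
open scoped Manifold ContDiff Topology InnerProductSpace
open MeasureTheory Set Function Filter

namespace Crest.Agent.X212.Sym93
open An Mod61 Eqv71 Hol14 Cnt93 Nk89 Ker54
open Fred93 (Fr)

variable {E : Type} [NormedAddCommGroup E] [NormedSpace ℝ E] [FiniteDimensional ℝ E]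
  [MeasurableSpace E] [BorelSpace E]
  {HM : Type} [TopologicalSpace HM] {I : ModelWithCorners ℝ E HM} [I.Boundaryless]
  {M : Type} [TopologicalSpace M] [ChartedSpace HM M] [IsManifold I ∞ M]
  [MeasurableSpace M] [T2Space M] [BorelSpace M] [SecondCountableTopology M]
  {ι : Type} [Fintype ι] {lam : Type} [Fintype lam]
  {T : Type} [NormedAddCommGroup T] [NormedSpace ℝ T] [CompleteSpace T]
  {𝔉 : Fam I M ι lam T} {o : Ref 𝔉} {r n m k : ℕ} {W hh : Type} [Fintype hh] {κ : hh → Cut M lam}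

/-- equivalence with fields -/
def EqX (y : Pnt o r) (χ : ∀ i, HH o (κ i)) (y' : Pnt o r) (χ' : ∀ i, HH o (κ i)) : Prop :=
  y'.t = y.t ∧ ∃ w ζ, y.Eq y' w ζ ∧ ∀ i, (κ i).Eqv (κ i) 𝔉.B 𝔉.B w (χ i) (χ' i)

/-- solutions with fields -/
def ZX (e : T → PtX M ι lam r n m) (σ : ∀ i, T → Pc r 𝔉.B (κ i)) (y : Pnt o r)
    (χ : ∀ i, HH o (κ i)) : Prop :=
  (e y.t).Zr y.cfg 𝔉.Om 𝔉.Om' ∧ ∀ i, ‖χ i‖ = 1 ∧ evC (σ i) y (χ i) = 0

theorem ph_alg {G V : Type} [Group G] [NormedAddCommGroup V] [InnerProductSpace ℝ V] {J : CL V V}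
    (JJ : ∀ v, J (J v) = -v) {R : G → CL V V} (RJ : ∀ g ζ a, R g (phz J ζ a) = phz J ζ (R g a))
    (RR : ∀ g g' a, R (g * g') a = R g (R g' a)) (R1 : ∀ a, R 1 a = a) {g g' : G} {η η' : Circle}
    {a a' : V} (e : phz J η (R g a) = phz J η' (R g' a')) :
    a' = phz J (η'⁻¹ * η : Circle) (R (g'⁻¹ * g) a) := by
  rw [RR, Circle.coe_mul, phz_mul JJ, ← RJ _ η, e, RJ, ← RR, inv_mul_cancel, R1, ← phz_mul JJ,
    ← Circle.coe_mul, inv_mul_cancel, Circle.coe_one, phz_one]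
  rfl

variable (h : 𝔉.OK) (hs : ∀ i, (κ i).supp ⊆ 𝔉.Om)
include h hs

theorem EqX.symm {y y' : Pnt o r} {χ χ' : ∀ i, HH o (κ i)} (a : EqX y χ y' χ') : EqX y' χ' y χ :=
  let ⟨ht, _, _, e, f⟩ := a
  ⟨ht.symm, _, _, e.symm h ht, fun i => eqv_symm (ψ := id) (lmC h ht e) (rel_refl h.B (hs i)) rfl (f i)⟩

theorem EqX.trans {y y' y'' : Pnt o r} {χ χ' χ'' : ∀ i, HH o (κ i)} (a : EqX y χ y' χ')
    (b : EqX y' χ' y'' χ'') : EqX y χ y'' χ'' :=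
  let ⟨ht, _, _, e, f⟩ := a
  let ⟨ht', _, _, e', f'⟩ := b
  ⟨ht'.trans ht, _, _, e.trans h ht e' ht', fun i => eqv_trans (φ := id) rfl
    (e'.m.J _ (hs i ⟨(0, 0), rfl⟩)) o.ok.Jsq (f i) (f' i)⟩

/-- **KER + ORB with cuts** -/
theorem ker_ext (hk : 4 ≤ k) {Al : (M → CL o.m.V o.m.V) → Circle → Prop} (Γ : GrpM o r k Al)
    {e : (W →₀ ℝ) → T → PtX M ι lam r n m} {σ : (W →₀ ℝ) → ∀ i, T → Pc r 𝔉.B (κ i)}
    {f : (W →₀ ℝ) → o.C r k → o.Y n m k} {f0 : o.C r k → o.Y n m k} {τ : W → o.C r k → o.Y n m k}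
    (hf : ∀ q v, f q v = f0 v + q.sum fun w c => c • τ w v)
    {A : (W →₀ ℝ) → ∀ i, o.C r k → CL (HH o (κ i)) (HH o (κ i))}
    {A0 : ∀ i, o.C r k → CL (HH o (κ i)) (HH o (κ i))}
    {S : W → ∀ i, o.C r k → CL (HH o (κ i)) (HH o (κ i))}
    (hA : ∀ q i v, A q i v = A0 i v + q.sum fun w c => c • S w i v)
    (rf : ∀ q, RepF (e q) (f q)) (rA : ∀ q i, RepC o k (σ q i) (A q i))
    (cτ : ∀ w, ContDiffOn ℝ ∞ (τ w) (o.U r k)) (cS : ∀ w i, ContDiffOn ℝ ∞ (S w i) (o.U r k))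
    (ne : ∀ q, NatP o o (fun _ _ => True) (e q)) (nσ : ∀ q i, NatC o o (fun _ _ => True) (σ q i))
    {q : W →₀ ℝ} {y : Pnt o r} {ψ : ∀ i, HH o (κ i)} (z : ZX (e q) (σ q) y ψ) (fre : y.Free Al)
    {d : ℤ} (slc : Γ.Slc (e q) d y) (tan : Tan Γ y) (fr : ∀ i, Fr (evC (σ q i) y) 0)
    (hr : Surjective (fderiv ℝ (bigF (f q) (A q)) (y.pt k, ψ))) {K : Type} [NormedAddCommGroup K]
    [NormedSpace ℝ K] [FiniteDimensional ℝ K] {ξ : K →ₗ[ℝ] M → o.m.A} {c : K →ₗ[ℝ] ℝ}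
    (sy : Sy y ξ c) (mb : ∀ s, Mb o (ξ s)) :
    (Module.finrank ℝ K : ℤ) ≤ d - 2 * Fintype.card hh ∧
    ((Module.finrank ℝ K : ℤ) = d - 2 * Fintype.card hh → ∀ (α : Type) (l : Filter α)
      (qs : α → W →₀ ℝ), St.Cv l qs q → ∃ N ∈ 𝓝 (y.pt k, ψ), ∀ᶠ j in l,
        ∀ (y₁ : Pnt o r) χ₁ (y₂ : Pnt o r) χ₂, (y₁.pt k, χ₁) ∈ N → (y₂.pt k, χ₂) ∈ N →
          ZX (e (qs j)) (σ (qs j)) y₁ χ₁ → ZX (e (qs j)) (σ (qs j)) y₂ χ₂ → EqX y₁ χ₁ y₂ χ₂) := by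
  have k3 : 3 ≤ k := by omega
  have x0 : ∀ i, (κ i).x0 ∈ 𝔉.Om := fun i => hs i ⟨(0, 0), rfl⟩
  have hfr := (Γ.free_iff h k3).2 fre
  obtain ⟨D, -, -, hu, -, hF, -⟩ := slc hfr
  obtain ⟨Θ, V, h0, h1, h2, h3⟩ := exists_orb h sy.inf mb k3
  have hg := fun s x => ((Grp76.Pg_iff h x _).1 ((sy.inf s).mem x)).1
  have JJ := fun i => JH_JH (cpC h o (x := (κ i).x0))
  let R : ∀ i, Γ.G → CL (HH o (κ i)) (HH o (κ i)) := fun i g => rC o o (κ i) (Γ.u g (κ i).x0)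
  let R' : ∀ i, K → CL (HH o (κ i)) (HH o (κ i)) := fun i s => rC o o (κ i) (uX (ξ s) (κ i).x0)
  have RJ : ∀ i g ζ a, R i g (phz (JC o (κ i)) ζ a) = phz (JC o (κ i)) ζ (R i g a) := fun i g =>
    phz_comm (itC h (Γ.mx g (x0 i))).rH_JH
  have RR : ∀ i g g' a, R i (g * g') a = R i g (R i g' a) := fun i g g' a =>
    (congrArg (rC _ _ (κ i) · a) (Γ.umul g g' _ (x0 i))).trans ((itC h (Γ.mx g' (x0 i))).rH_rH a).symm
  have R1 : ∀ i a, R i 1 a = a := fun i a =>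
    (congrArg (rC _ _ (κ i) · a) (Γ.u_one (x0 i))).trans (rC_p h a)
  let S' := bigS (fun i => JC o (κ i)) (fun p : (Γ.L × K) × o.C r k => D.e p.1.1 • Θ (p.1.2, p.2))
    fun i p => R i (D.e p.1) ∘L R' i p.2
  have hz : ∀ q' (y' : Pnt o r) χ a, ZX (e q') (σ q') y' χ →
      bigF (f q') (A q') (S' (a, y'.pt k, χ)) = 0 := fun q' y' χ a z => by
    obtain ⟨y₁, e1, e2, e3⟩ := h3 a.2.1 y'
    have me := fun i => (e3.mi h e2).me _ (x0 i)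
    refine Prod.ext ?_ (Prod.ext (funext fun i => ?_) (funext fun i => ?_))
    · show f q' (D.e a.1 • Θ (a.2.1, y'.pt k)) = 0
      rw [← e1, Γ.equivar h hk ((ne q').mono fun _ _ _ => trivial) (rf q') _ y₁.mem_U,
        (((rf q').2 y₁).zero_iff h hk).2 (zr_of (ne q') e2 trivial e3 z.1), map_zero]
    · show A q' i (D.e a.1 • Θ (a.2.1, y'.pt k)) (phz _ _ (R i _ (R' i _ (χ i)))) = 0
      have b := nσ q' i y' y₁ _ _ e2 trivial e3 1 (χ i)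
      rw [Rh_one h (me i), Rh_one h (me i), (z.2 i).2, map_zero, ← (rA q' i).2] at b
      rw [← e1, phz_comm ((rA q' i).J h (hs i) k3 trivial (nσ q' i) (Γ.inv_U _ _ y₁.mem_U)),
        (rA q' i).act h (hs i) k3 Γ (fun y y' w ζ t _ => nσ q' i y y' w ζ t trivial) _ y₁.mem_U, b,
        map_zero, map_zero]
    · show ‖phz _ _ (R i _ (R' i _ (χ i)))‖ ^ 2 - 1 = 0
      rw [norm_phz (JJ i) (JH_skew (cpC h o)), norm_rC h (Γ.mx _ (x0 i)), norm_rC h (me i),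
        (z.2 i).1, one_pow, sub_self]
  have hU := (isOpen_U h).mem_nhds (y.mem_U (k := k))
  have hρ : ∀ i, ∃ ρ', HasStrictFDerivAt (𝕜 := ℝ)
      (fun p : Γ.L × K => R i (D.e p.1) ∘L R' i p.2) ρ' 0 := fun i => by
    obtain ⟨s, hs⟩ := hu (κ i).x0
    let L := rHL o.m.J (o.m.pp 𝔉.B (κ i).x0)
    let P := opL ∘L LinearMap.toContinuousLinearMap (LinearMap.proj (κ i).x0 ∘ₗ ξ) ∘L .snd ℝ Γ.L K
    have a1 : HasStrictFDerivAt NormedSpace.exp (1 : _ →L[ℝ] _) (P 0) := by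
      rw [map_zero]; exact hasStrictFDerivAt_exp_zero
    exact ⟨_, (L.hasStrictFDerivAt.comp 0 (HasStrictFDerivAt.comp (f := Prod.fst) (0 : Γ.L × K) hs
      hasStrictFDerivAt_fst)).clm_comp (L.hasStrictFDerivAt.comp 0
        ((a1.comp 0 P.hasStrictFDerivAt).mul_const' (o.m.p (κ i).x0)))⟩
  obtain ⟨h5, h6⟩ := ext_abs (J := fun i => JC o (κ i)) (ψ := ψ) JJ
    (fun i e => by simpa [e] using (z.2 i).1) D.bij (joint_der D h1 (h0 _))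
    (by rw [Prod.fst_zero, Prod.snd_zero, h0, D.e_zero, one_smul]) hρ (fun i v => by
      show R i (D.e 0) (rC o o (κ i) (uX (ξ 0) (κ i).x0) v) = v
      rw [D.e_zero, R1, map_zero, uX, Pi.zero_apply, map_zero, NormedSpace.exp_zero, one_mul,
        rC_p h])
    (fun s ξ' e => let ⟨_, b⟩ := tan hfr D ξ'; Sy.eq_zero h k3 sy (h2 s) (e ▸ b)) hf hA
    ((rf q).1.contDiffAt hU) (fun w => (cτ w).contDiffAt hU) (fun i => (rA q i).1.contDiffAt hU)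
    (fun w i => (cS w i).contDiffAt hU) (hF _ (rf q)) (fun i => (rA q i).2 y ▸ fr i) hr
    fun a => hz q y ψ a z
  refine ⟨h5, fun e α l qs hq => ?_⟩
  obtain ⟨N, hN, b, hb⟩ := h6 e α l qs hq
  refine ⟨N, hN, hb.mono fun j a1 y₁ χ₁ y₂ χ₂ a2 a4 z1 z2 => ?_⟩
  have a6 := a1 _ a2 _ a4 ((hz _ y₁ _ _ z1).trans (hz _ y₂ _ _ z2).symm)
  generalize b (y₁.pt k, χ₁) = b₁ at a6
  generalize b (y₂.pt k, χ₂) = b₂ at a6
  obtain ⟨w₁, b1, b2, b3⟩ := h3 b₁.2.1 y₁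
  obtain ⟨w₂, b4, b5, b6⟩ := h3 b₂.2.1 y₂
  have a7 : ((D.e b₂.1)⁻¹ * D.e b₁.1) • w₁.pt k = w₂.pt k := by
    rw [mul_smul, inv_smul_eq_iff, b1, b4]; exact congrArg Prod.fst a6
  have a8 := Γ.eq_of_smul h k3 a7
  have a9 : ∀ {y w : Pnt o r} (χ : ∀ i, HH o (κ i)) {s}, w.t = y.t →
      y.Eq w (uX (ξ s)) (Circle.exp (c s)) → EqX y χ w fun i => R' i s (χ i) := fun χ s t e =>
    ⟨t, _, _, e, fun i => (eqvC_iff h (hs i) t e).2 ⟨1, by rw [Circle.coe_one, phz_one]; rfl⟩⟩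
  refine ((a9 χ₁ b2 b3).trans h hs ⟨Γ.t_eq a7, _, _, a8, fun i => (eqvC_iff h (hs i) (Γ.t_eq a7)
    a8).2 ⟨(Circle.exp (b₂.2.2 i))⁻¹ * Circle.exp (b₁.2.2 i), ?_⟩⟩).trans h hs
      ((a9 χ₂ b5 b6).symm h hs)
  have c1 : phz (JC o (κ i)) (Circle.exp (b₁.2.2 i)) (R i (D.e b₁.1) (R' i b₁.2.1 (χ₁ i))) =
      phz (JC o (κ i)) (Circle.exp (b₂.2.2 i)) (R i (D.e b₂.1) (R' i b₂.2.1 (χ₂ i))) :=
    congrFun (congrArg Prod.snd a6) i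
  exact ph_alg (JJ i) (RJ i) (RR i) (R1 i) c1

end Crest.Agent.X212.Sym93
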