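import Crest.Agent.X212.Gb54.Ker
import Crest.Agent.X212.End14.Cyl
import Crest.Agent.X212.Nk89.Geo
import Crest.Agent.X212.Clr59.Ys

/-! The symmetries given by the phase and by parallel sections at the ends. -/

set_option autoImplicit false
set_option linter.unusedSectionVars false
noncomputable section
open scoped Manifold ContDiff Topology InnerProductSpace
open MeasureTheory Set Function Filter

namespace Crest.Agent.X212.Sym93
open An An.Pre Sob92 Prm93 Mod61 Nd18 Eqv71 Nk89 Ker54 Cyf70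
open Grp76 (Nice mA hs_iff Pg_iff)
open Wz78 (nab SA adcL)
open Rf65 (ParY)

variable {E : Type} [NormedAddCommGroup E] [NormedSpace ℝ E] [FiniteDimensional ℝ E]
  [MeasurableSpace E] [BorelSpace E]
  {HM : Type} [TopologicalSpace HM] {I : ModelWithCorners ℝ E HM} [I.Boundaryless]
  {M : Type} [TopologicalSpace M] [ChartedSpace HM M] [IsManifold I ∞ M]
  [MeasurableSpace M] [T2Space M] [BorelSpace M] [SecondCountableTopology M]
  {κ : Type} [Fintype κ] {lam : Type} [Fintype lam]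
  {T : Type} [NormedAddCommGroup T] [NormedSpace ℝ T]
  {𝔉 : Fam I M (Option κ) lam T} {δ R c : ℝ} {o : Ref 𝔉} {r : ℕ} {K : Set M} {ξ : M → o.m.A}

variable (o) in
/-- bounded gauge parameters, parallel off `K` for all base connections -/
structure Pb (K : Set M) (ξ : M → o.m.A) : Prop where
  cb : 𝔉.F0.Cb ξ
  mem : ∀ x, o.Pg x (ξ x) = ξ x
  par : ∀ t ∈ 𝔉.Q, ∀ a, ∀ x ∉ K, nab I 𝔉.F0.e (o.m.adW (o.A t)) a ξ x = 0

theorem Pb.sum {α : Type} [Fintype α] {f : α → M → o.m.A} (a : ∀ i, Pb o K (f i)) :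
    Pb o K fun x => ∑ i, f i x :=
  ⟨Cb_sum _ fun i _ => (a i).cb, fun x => by simp only [map_sum, (a _).mem], fun t ht b x hx => by
    rw [Wz78.nab_sum b _ fun i => Cb.sm (a i).cb x]
    exact Finset.sum_eq_zero fun i _ => (a i).par t ht b x hx⟩

theorem Pb.inf (h : 𝔉.OK) (hK : IsCompact K) (h0 : o.Φ0 = 0) (a : Pb o K ξ) (y : Pnt o r) (c : ℝ) :
    Inf y ξ c := by
  have nφ := ((hs_iff h).1 y.hφ).1
  have n : ∀ b, Nice 𝔉.F0.toPre (n0 y ξ b) := fun b => by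
    rw [show n0 y ξ b = fun x => nab I 𝔉.F0.e (o.m.adW (o.A y.t)) b ξ x +
      adcL (opL (Grp76.pj _ b (y.α x))) (ξ x) from funext fun x => by
        simp only [n0, nab, Md.adW, ← Wz78.adcL_apply, map_add, _root_.add_apply, add_assoc]; rfl]
    exact (Nice.of_hcs (Cb.sm (Cb_add (Cb_D a.cb b) (Cb_app (Cb_clm adcL (o.cAt y.t b)) a.cb)))
      (.intro hK (a.par _ y.ht b))).add (((((hs_iff h).1 y.hα).1.clm _).clm (adcL ∘L opL)).bil'
        (.id ℝ _) a.cb)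
  refine ⟨a.cb, a.mem, fun b => ?_, ?_⟩
  · rw [show nab I _ _ b ξ = _ from funext fun x => nab_W h ((Pg_iff h x _).1 (a.mem x)).1 b]
    exact Nice.sum _ fun l => (n l).bil (ContinuousLinearMap.lsmul ℝ ℝ) ((h.sS b l).cb _ y.ht)
  · simpa [h0] using (nφ.app (Cb_clm opL a.cb)).add (nφ.clm (c • o.m.J))

theorem Pb.mb (h : 𝔉.OK) (hK : IsCompact K) {t₀ : T} (ht : t₀ ∈ 𝔉.Q) (a : Pb o K ξ) : Mb o ξ := by
  refine Gb54.mb_of (Cb.sm a.cb) hK fun t b x hx => ?_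
  have c : Tendsto (fun s : ℝ => t₀ + s • t) (𝓝[≠] 0) (𝓝 t₀) :=
    (Continuous.tendsto' (by fun_prop) _ _ (by simp)).mono_left nhdsWithin_le_nhds
  obtain ⟨s, h1, h2⟩ := ((c.eventually (h.opn.mem_nhds ht)).and self_mem_nhdsWithin).exists
  have h3 := (a.par _ h1 b x hx).trans (a.par _ ht b x hx).symm
  simp only [nab, Md.adW, Ref.A, Md.addC, ← Wz78.adcL_apply, map_add, map_smul, Pi.add_apply,
    PiLp.add_apply, Pi.smul_apply, PiLp.smul_apply, _root_.add_apply, _root_.smul_apply,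
    ← add_assoc, add_eq_left] at h3
  exact (sub_eq_zero.1 ((Grp76.adc_opL _ _).symm.trans ((smul_eq_zero.1 h3).resolve_left h2))).symm

/-- extension from a cross-section -/
def ex (P : End 𝔉) (c : ℝ) {V : Type} [NormedAddCommGroup V] [NormedSpace ℝ V] :
    (P.Y.M → V) →ₗ[ℝ] M → V where
  toFun f := pull P.K.ψ.symm fun z => P.θZ c z • f z.1
  map_add' _ _ := (congrArg _ (funext fun _ => smul_add _ _ _)).trans (pull_add _ _)
  map_smul' _ _ := (congrArg _ (funext fun _ => smul_comm _ _ _)).trans (pull_smul _ _)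

section ex
variable {P : End 𝔉} {V : Type} [NormedAddCommGroup V] [NormedSpace ℝ V] {f : P.Y.M → V}

theorem ex_ψ {z : P.Y.M × ℝ} (hz : z ∈ P.K.ψ.source) : ex P c f (P.K.ψ z) = P.θZ c z • f z.1 :=
  (pull_of_mem (φ := P.K.ψ.symm) (P.K.ψ.map_source hz) _).trans (by rw [P.K.ψ.left_inv hz])

theorem ex_off {x : M} (hx : x ∉ P.U c) : ex P c f x = 0 := by
  by_cases k : x ∈ P.K.ψ.target
  · refine (pull_of_mem (φ := P.K.ψ.symm) k _).trans (smul_eq_zero_of_left (hc_zero ?_) _)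
    rw [P.K.snd_symm k]; exact not_lt.1 fun e => hx ⟨k, e⟩
  · exact pull_of_notMem (φ := P.K.ψ.symm) k _

end ex

variable (X : Ends 𝔉 δ) (hl : X.Lit o R)
include hl

theorem pb_ex {a : X.A} (ha : X.Act a) {t₀ : T} (h0 : t₀ ∈ 𝔉.Q) {f : (X.P a).Y.M → o.m.A}
    (hf : ∀ t ∈ 𝔉.Q, ParY (X.P a).D ((X.P a).sl o (R + 1) t) f) :
    Pb o (⋃ a, (X.P a).U (R + 1))ᶜ (ex (X.P a) R f) := by
  have h := X.okP a
  have H := X.ok
  have l := hl.lit a
  obtain ⟨C, hC⟩ := bd_hc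
  obtain ⟨C', hC'⟩ := Cb_smul ⟨_, (hC _ R (X.P a).sg_cases).cyl (X.P a).D.F.toPre⟩
    (cb_inv (X.P a).D.F.toPre (sm_fst (hf _ h0).sm))
  refine ⟨X.wt.toWtP.Cb.2 ⟨_, (Cht98.nck (X.P a).K).CBs_pull (S := {s | R ≤ (X.P a).sg * s})
    (isClosed_le continuous_const (by fun_prop)) (fun s hs => h.J (hl.le.trans hs))
    (fun z hz => smul_eq_zero_of_left (hc_zero (not_le.1 hz).le) _) hC'⟩, fun x => ?_,
    fun t ht b x hx => ?_⟩
  · by_cases k : x ∈ (X.P a).U R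
    · refine (Pg_iff H x _).2 ⟨?_, fun e => (e (ha ((X.P a).U_mono hl.le k))).elim⟩
      obtain ⟨z, hz, rfl⟩ := h.exists_ψ k
      obtain ⟨h1, h2, h3, -⟩ := l.at h0 hz
      obtain ⟨g1, g2, g3, g4, g5⟩ := (hf _ h0).mem z.1
      rw [ex_ψ (h.src (hl.le.trans hz.le))]
      exact Submodule.smul_mem _ _ ⟨g1, h1 ▸ g2, g3, fun i => h2 i ▸ g4 i, h3 ▸ g5⟩
    · rw [ex_off k, map_zero]
  obtain ⟨a', k⟩ := mem_iUnion.1 (not_not.1 hx)
  have R1 := (lt_add_one R).le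
  rcases eq_or_ne a' a with rfl | ne
  · obtain ⟨z, hz, rfl⟩ := h.exists_ψ k
    have hz' : z ∈ (X.P a').H R := R1.trans_lt hz
    refine ((End14.fRel0 H h).nab (hl.le.trans_lt hz') b (congrArg adc ?_) ?_).symm.trans
      (Clr59.par_cyl (l.adm H h hl.le ht) (hf t ht) b z)
    · exact ((l.at ht hz').2.2.2.1 b).symm.trans
        (End14.W0_end H h ht (h.ψ_mem le_rfl (hl.le.trans_lt hz')) b)
    · filter_upwards [((X.P a').isOpen_H _).mem_nhds hz] with w hw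
      rw [ex_ψ (h.src ((hl.le.trans R1).trans hw.le)), End.θZ, hc_one hw.le, one_smul]
  · rw [Wz78.nab_congr (v := fun _ => 0) b, nab, dv_const, map_zero, add_zero]
    · rfl
    filter_upwards [((X.P a').isOpen_U _).mem_nhds k] with w hw
    exact ex_off fun e => disjoint_left.1 (X.dis ne) ((X.P a').U_mono (hl.le.trans R1) hw)
      ((X.P a).U_mono hl.le e)

/-- **the symmetries** -/
theorem exists_sy (h0 : o.Φ0 = 0) (y : Pnt o r) {S : Type} [Fintype S] {j : S → X.A}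
    (hj : Injective j) (act : ∀ i, X.Act (j i)) {L : S → Type} [∀ i, AddCommGroup (L i)]
    [∀ i, Module ℝ (L i)] {ζ : ∀ i, L i →ₗ[ℝ] (X.P (j i)).Y.M → o.m.A} (hζ : ∀ i, Injective (ζ i))
    (par : ∀ i s, ∀ t ∈ 𝔉.Q, ParY (X.P (j i)).D ((X.P (j i)).sl o (R + 1) t) (ζ i s))
    (irr : ∀ i, ∀ x ∈ (X.P (j i)).U X.R, (∃ x' ∈ connectedComponent x, y.cfg.Φ x' ≠ 0) ∨
      ¬Red (𝔉.G y.t).F y.cfg (connectedComponent x)) {L₀ : Type} [AddCommGroup L₀] [Module ℝ L₀]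
    {c₀ : L₀ →ₗ[ℝ] ℝ} (hz : ∀ s, (c₀ s : ℂ) • y.z = 0 → s = 0) :
    ∃ (ξ : (L₀ × ∀ i, L i) →ₗ[ℝ] M → o.m.A) (c : (L₀ × ∀ i, L i) →ₗ[ℝ] ℝ),
      Sy y ξ c ∧ ∀ s, Mb o (ξ s) := by
  have H := X.ok
  let ξ : (L₀ × ∀ i, L i) →ₗ[ℝ] M → o.m.A :=
    ∑ i, ex (X.P (j i)) R ∘ₗ ζ i ∘ₗ LinearMap.proj i ∘ₗ .snd ℝ _ _
  have e : ∀ s, ξ s = fun x => ∑ i, ex (X.P (j i)) R (ζ i (s.2 i)) x := fun s =>
    funext fun x => by simp [ξ]
  have pb : ∀ s, Pb o (⋃ a, (X.P a).U (R + 1))ᶜ (ξ s) := fun s =>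
    e s ▸ Pb.sum fun i => pb_ex X hl (act i) y.ht (par i _)
  refine ⟨ξ, c₀ ∘ₗ .fst ℝ _ _, ⟨fun s => (pb s).inf H (X.cov' _) h0 y _, fun s η hη h1 h2 h3 =>
    Prod.ext (hz _ h3) (funext fun i => hζ i (funext fun w => ?_))⟩,
    fun s => (pb s).mb H (X.cov' _) y.ht⟩
  have h := X.okP (j i)
  have C : o.m.IsConn 𝔉.B (𝔉.G y.t) (o.W y.t y.α) := (y.ad0 H).conn
  have hs : Sm I (ξ s - η) := (Cb.sm (pb s).cb).sub ((hs_iff H).1 hη).1.sm
  have hg : ∀ x, (ξ s - η) x ∈ o.m.gS x := fun x => sub_mem ((Pg_iff H x _).1 ((pb s).mem x)).1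
    ((Pg_iff H x _).1 (((hs_iff H).1 hη).2 x)).1
  have z : ∀ x ∈ (X.P (j i)).U X.R, (ξ s - η) x = 0 := fun x hx => by
    rcases irr i x hx with ⟨x', k1, k2⟩ | k
    · have k3 := End14.const_cc (h := fun x => ⟪(ξ s - η) x, (ξ s - η) x⟫_ℝ) (𝔉.G y.t).F.toPre
        isClopen_univ (fun z _ => ⟨(SA.inner (hs z) (hs z)).md, fun a => by
          rw [Pre.D_def, Wz78.dv_inner a (Wz78.adW_skw C a z) (hs z) (hs z), h1 a z]; simp⟩)
        trivial k1
      have k4 := Std94.norm_g_apply H.B (Std94.pmx o.ok x') (hg x') (y.cfg.Φ x')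
      have k5 := h2 x'
      rw [show (c₀ ∘ₗ LinearMap.fst ℝ _ _) s = 0 from (congrArg c₀ (hz _ h3)).trans (map_zero _),
        zero_smul, add_zero] at k5
      rw [show opL ((ξ s - η) x') (y.cfg.Φ x') = 0 from k5, Grp76.p_Pp H (y.pΦ H x'), norm_zero, eq_comm,
        mul_eq_zero, norm_eq_zero, div_eq_zero_iff, norm_eq_zero, or_iff_left four_ne_zero] at k4
      rw [k4.resolve_right k2, inner_zero_left] at k3
      exact inner_self_eq_zero.1 k3.symm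
    · exact by_contra fun k' => k ⟨_, ⟨hs.contMDiffOn, fun x _ => hg x, fun a x _ => h1 a x⟩, x,
        mem_connectedComponent, k'⟩
  rw [Prod.snd_zero, Pi.zero_apply, map_zero]
  refine norm_le_zero_iff.1 (le_of_forall_pos_le_add fun ε hε => ?_)
  obtain ⟨K, hK, k1⟩ := End14.hs_small H.sup hη hε
  obtain ⟨b, hb⟩ := X.exists_ht hK
  have k2 : max b (R + 1) < (X.P (j i)).sg * ((X.P (j i)).sg * (max b (R + 1) + 1)) := by
    rw [End.sg_sg]; exact lt_add_one _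
  generalize (X.P (j i)).sg * (max b (R + 1) + 1) = t at k2
  have k3 : X.R < (X.P (j i)).sg * t := by linarith [le_max_right b (R + 1), hl.le]
  have k4 := h.ψ_mem (z := (w, t)) le_rfl k3
  have k5 := k1 _ (hb _ _ ⟨k4.1, by rw [h.tm k3.le]; exact (le_max_left _ _).trans_lt k2⟩)
  rw [← sub_eq_zero.1 (z _ k4), e] at k5
  beta_reduce at k5
  rw [Finset.sum_eq_single i (fun i' _ ne => ex_off fun k => disjoint_left.1 (X.dis (hj.ne ne))
    (End.U_mono _ hl.le k) k4) (by simp), ex_ψ (h.src k3.le), End.θZ,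
    hc_one ((le_max_right _ _).trans k2.le), one_smul] at k5
  simpa using k5

end Crest.Agent.X212.Sym93
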