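import Crest.Agent.X212.Sym93.Defs
import Crest.Agent.X212.Sym93.Ker
import Crest.Agent.X212.Sym93.Inf
import Crest.Agent.X212.Sym93.Trp
import Crest.Agent.X212.Pte3.Sol
import Crest.Agent.X212.Add46.Ch
import Crest.Agent.X212.Wrd81.Loc2

/-! Row 212, **P-SYM**. -/

set_option autoImplicit false
set_option linter.unusedSectionVars false
noncomputable section
open scoped Manifold ContDiff Topology InnerProductSpace
open MeasureTheory Set Function Filter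

namespace Crest.Agent.X212.Sym93
open An M Nd18 Mod61 Nk89 Cht98 Rf65 Eqv71 Wrd81 Pte3
open An.Job (SolOn StrOn)

variable {Wi : Type} {X : Mf 4} {A κ lam : Type} [Fintype A] [Fintype κ] [Fintype lam]
  [DecidableEq lam] {M : Mark X A κ} {W : World M} {N : ML M lam} {Λ : Lns W N}
  {A' h : Type} [Fintype A'] [DecidableEq A'] [Fintype h] {r n : ℕ}
  {J : Job Wi Λ A' h r n} {c : M.Cl} {σ : Cel A'} {p : Prt A A' h} {U : Type} [Fintype U] {δ : ℝ}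
  {b : Bp J c} {E : EC b p U δ} {q : Wi →₀ ℝ} (H : CS σ E) {y : J.Obc c} {x : Pnt E.o r} {ψ : E.K}
include H

theorem adm_sl (i : Ed c) {t : Tq p U} (ht : t ∈ (b.F p U δ).Q) :
    (J.xs i.1).D.Adm ((en E i).sl E.o (E.R + 1) t) :=
  (H.eo.lit i).adm H.F (H.ee.okP i) H.eo.R5 ht

/-- the limits are those of the chart -/
theorem lim_eqv (S : SolOn p σ q y) (R : E.RepC y x ψ) {i : Ed c} (hi : i ∈ EdP c p.P) :
    (J.xs i.1).D.Adm (y.β i.1 i.2) ∧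
      (J.xs i.1).D.Eqv ((en E i).sl E.o (E.R + 1) x.t) (y.β i.1 i.2) := by
  obtain ⟨u, ζ, e, -⟩ := R.e
  have cr := S.crit i.1 i.1.2 i.2 hi
  have ad : (J.xs i.1).D.Adm (y.β i.1 i.2) := ⟨cr.sol.toAdm, cr.tmp⟩
  have ha : Act J.m c i.1 (some i.2) (J.Θ b.s) := ⟨i.1.2.2, b.br, b.O, i.1.2.1⟩
  have h1 := H.ok.act_end H.mem S.ov ha
  have h2 := H.ok.act_end H.mem (H.ovx x) ha
  have g := H.pok.kt2 H.ok H.mem S.ov (H.ovx x) (θ_eq R.s)
  have k := H.cr S R.s e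
  have L := (H.ok.end_eq h2 ha).lim ((H.ok.end_eq h1 h2).lim_pre g.hB g.hG'
    (H.pok.agr H.ok H.mem S.ov (H.ovx x) (θ_eq R.s)) H.cl
    (H.ok.end_sub h1 H.pok.pc hi) ad k.adm' k.adm (ceq_symm2 g.toLG H.cl.2 k.adm k.adm' k.e)
    (S.lim _ _ h1 hi))
  refine ⟨ad, Add46.eqv_lim H.ee H.lit ((H.act_iff H.eo.d0 H.eo.d1).2 hi) (x.ad0 H.F).adm0
    ⟨_, _, ceq_refl H.F.B (H.F.G _ x.ht) (x.ad0 H.F) H.cl.2⟩ ad (ζ := y.ζ i.1 i.2 * ζ⁻¹) ?_⟩
  obtain ⟨_, _ | _⟩ := i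
  exacts [L, L]

theorem dz_sl (S : SolOn p σ q y) (R : E.RepC y x ψ) {i : Ed c} (hi : i ∈ EdP c p.P) :
    dz (J.xs i.1).D ((en E i).sl E.o (E.R + 1) x.t) = dz (J.xs i.1).D (y.β i.1 i.2) :=
  have := J.conn_xs i.1
  dz_eqv (H.ok.xs i.1).1.yd (adm_sl H i x.ht) (lim_eqv H S R hi).1 (lim_eqv H S R hi).2

theorem par_all (pj : PJ J c) (S : SolE p E.μ σ q y) (R : E.RepC y x ψ) {i : Ed c}
    (hi : i ∈ EdP c p.P) {ξ : (J.xs i.1).Y.M → E.o.m.A}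
    (a : ParY (J.xs i.1).D ((en E i).sl E.o (E.R + 1) x.t) ξ) (t : Tq p U)
    (ht : t ∈ (b.F p U δ).Q) : ParY (J.xs i.1).D ((en E i).sl E.o (E.R + 1) t) ξ := by
  have := J.conn_xs i.1
  have e := H.eo.mov i hi
  by_cases k : E.μ i = none
  · have l := e _ ht
    unfold EC.lim at l
    rw [show E.lm i t = E.lm i x.t by simp [EC.lm, k]] at l
    exact par_fix (H.ok.xs i.1).1.yd (adm_sl H i x.ht) (adm_sl H i ht) (e _ x.ht) l a
  · obtain ⟨h1, h2, h3⟩ := H.eo.har i hi k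
    obtain ⟨_, py⟩ := pj.py i.1 i.1.2
    exact par_mov py h1 h2 h3 (adm_sl H i x.ht) (adm_sl H i ht) (e _ x.ht) (e _ ht)
      ((dz_sl H S.toSolOn R hi).trans (S.mv i k).2) a

/-- the symmetries -/
theorem sy_ex (pj : PJ J c) (S : SolE p E.μ σ q y) (R : E.RepC y x ψ) (h0 : E.o.Φ0 = 0)
    {P₁ : Set (Reg A)} (h1 : P₁ ⊆ p.P)
    (h2 : ∀ π ∈ P₁, y.TF π ∨ ¬Red (J.G c y.s).F y.x (W.pc c π)) :
    ∃ (ξ : (Fin (min r 1 + stb y P₁) → ℝ) →ₗ[ℝ] (W.Z c).M → E.o.m.A) (c' : _ →ₗ[ℝ] ℝ),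
      Sy x ξ c' ∧ ∀ s, Ker54.Mb E.o (ξ s) := by
  have : Fintype (EdP c P₁) := Fintype.ofFinite _
  have hi : ∀ i : EdP c P₁, i.1 ∈ EdP c p.P := fun ⟨_, π, k, e⟩ => ⟨π, h1 k, e⟩
  obtain ⟨u, ζ, e, -⟩ := R.e
  obtain ⟨ξ, c', k1, k2⟩ := exists_sy H.ee H.lit h0 x (j := Subtype.val) (S := EdP c P₁)
    Subtype.val_injective (fun i => (H.act_iff H.eo.d0 H.eo.d1).2 (hi i))
    (L := fun i => Clr59.parS (J.xs i.1.1).D ((en E i.1).sl E.o (E.R + 1) x.t))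
    (ζ := fun i => Submodule.subtype _) (fun i => Subtype.val_injective)
    (fun i s => par_all H pj S R (hi i) s.2) (fun ⟨i, π, k3, k4⟩ z hz => by
      have hπ := H.pok.pc π (h1 k3)
      have k := H.same S.toSolOn R.s e (h1 k3)
      have := H.ok.end_sub (t := J.Θ b.s) ⟨i.1.2.2, b.br, b.O, i.1.2.1⟩ (P := {π})
        (fun _ e => e ▸ hπ) ⟨π, rfl, k4⟩ hz.1
      rw [un_one] at this
      rw [cc_pc hπ this]
      exact (h2 π k3).imp k.sp.1 (mt k.red.2))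
    (L₀ := Fin (min r 1) → ℝ) (c₀ := ∑ i, LinearMap.proj i) fun s hs => funext fun i => by
      have : Subsingleton (Fin (min r 1)) := Fin.subsingleton_iff_le_one.2 (min_le_right _ _)
      rcases H.nz S.toSolOn R.s e with k | k
      · exact (show Fin (min r 1) → False from k ▸ Fin.elim0) i |>.elim
      · rw [Fintype.sum_subsingleton _ i] at hs
        exact Complex.ofReal_eq_zero.1 ((smul_eq_zero.1 hs).resolve_right
          (norm_ne_zero_iff.1 (k.trans_ne one_ne_zero)))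
  have := fun i : EdP c P₁ => have := J.conn_xs i.1.1
    fin_par (H.ok.xs i.1.1).1.yd (adm_sl H i.1 x.ht)
  let l := LinearEquiv.ofFinrankEq (R := ℝ) (Fin (min r 1 + stb y P₁) → ℝ) ((Fin (min r 1) → ℝ) ×
    ∀ i : EdP c P₁, Clr59.parS (J.xs i.1.1).D ((en E i.1).sl E.o (E.R + 1) x.t)) (by
      rw [Module.finrank_prod, Module.finrank_fin_fun, Module.finrank_fin_fun,
        Module.finrank_pi_fintype, stb, ← finsum_set_coe_eq_finsum_mem]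
      exact congrArg _ ((finsum_eq_sum_of_fintype (α := EdP c P₁) _).trans (Finset.sum_congr rfl
        fun i _ => (dz_sl H S.toSolOn R (hi i)).symm.trans Clr59.dz_def)))
  exact ⟨ξ ∘ₗ l.toLinearMap, c' ∘ₗ l.toLinearMap, ⟨fun s => k1.inf _, fun s η a1 a2 a3 a4 =>
    l.map_eq_zero_iff.1 (k1.2 _ η a1 a2 a3 a4)⟩, fun s => k2 _⟩

variable (E) in
omit H in
/-- the rows of the cuts -/
def rw (q : Wi →₀ ℝ) (i : p.H) : Tq p U → Pc r (b.F p U δ).B (J.cut c i) := fun t x =>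
  tpC (b.F p U δ) r (J.cut c i) t x - (cu p U δ b).tot q i t x

theorem zx (S : SolOn p σ q y) (R : E.RepC y x ψ) : ZX (EC.tot b p U δ q) (rw q) x ψ := by
  obtain ⟨u, ζ, e, e'⟩ := R.e
  refine ⟨H.zr S R.s e, fun i => ?_⟩
  have := H.cut_sol S R.s e (e' i)
  rw [← tot_cu (b := b) (U := U) (δ := δ)] at this
  exact ⟨this.1, sub_eq_zero.2 this.2⟩

omit H in
theorem tr2 {B : Base (W.Z c).M (Option κ) (lam ⊕ lam)} {G G' G'' : Geo (W.Z c).I _ _ _} {O : Set _}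
    (g : LG B G B G' O id (fun x b a => B.P b a x) B.l)
    (g' : LG B G' B G'' O id (fun x b a => B.P b a x) B.l) {x x' x'' : Cfg _ _ _ r} (a : Ad0 x B G)
    (a' : Ad0 x' B G') (a'' : Ad0 x'' B G'') {u u' ζ ζ'} (e : Mod61.EqOn B G.F O x x' u ζ)
    (e' : Mod61.EqOn B G'.F O x' x'' u' ζ') :
    Mod61.EqOn B G.F O x x'' (fun z => u' z ∘L u z) (ζ' * ζ) := by
  have := ceq_trans g g' (mapsTo_id O) a a' a'' e e'
  rwa [show (fun x d a => ∑ b, B.P d b (id x) * B.P b a x) = fun x b a => B.P b a x from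
    funext₃ fun y => (g.hB.pr y).idem, show (fun x => B.l (id x) ∘L B.l x) = B.l from
      funext g.hB.lidem] at this

theorem eqP {y' : J.Obc c} {x' : Pnt E.o r} {ψ' : E.K} (S : SolOn p σ q y) (S' : SolOn p σ q y')
    (R : E.RepC y x ψ) (R' : E.RepC y' x' ψ') (a : EqX x ψ x' ψ') : EqP p y y' := by
  obtain ⟨u, ζ, e, f⟩ := R.e
  obtain ⟨u', ζ', e', f'⟩ := R'.e
  obtain ⟨t, w, η, e0, f0⟩ := a
  have s' : ∀ a ∈ p.V, y'.s a = b.θ p U x.t a := t ▸ θ_eq R'.s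
  have g := (H.pok.kt2 H.ok H.mem S.ov (H.ovx x) (θ_eq R.s)).toLG
  have g' := (H.pok.kt2 H.ok H.mem S'.ov (H.ovx x) s').toLG
  have g'' := (H.pok.kt2 H.ok H.mem (H.ovx x) S'.ov fun a k => (s' a k).symm).toLG
  have k := H.cr S R.s e
  have k' := H.cr S' R'.s e'
  rw [t] at k'
  have x0 := fun i : p.H => H.cut_sub i ⟨(0, 0), rfl⟩
  have e1 := ceq_symm2 g' H.cl.2 k'.adm k'.adm' k'.e
  have e2 := tr2 (lg_refl g.hB g.hG' H.cl.2) g'' k.adm' k'.adm' k'.adm (H.cr0 t e0).e e1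
  refine ⟨fun a ha => (θ_eq R.s a ha).trans (s' a ha).symm, _, _,
    tr2 g g'' k.adm k.adm' k'.adm k.e e2, fun i hi => ?_⟩
  have f1 := Cnt93.eqv_symm (ψ := id) (g'.of_ceq k'.adm k'.adm' k'.e)
    (Cnt93.rel_refl g.hB (H.cut_sub ⟨i, hi⟩)) rfl (f' ⟨i, hi⟩)
  have f2 := Cnt93.eqv_trans (φ := id) rfl (e1.m.J _ (x0 ⟨i, hi⟩)) k'.adm.ok.Jsq (f0 ⟨i, hi⟩) f1
  have f3 := Cnt93.eqv_trans (φ := id) rfl (e2.m.J _ (x0 ⟨i, hi⟩)) k'.adm.ok.Jsq (f ⟨i, hi⟩) f2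
  exact f3

theorem nat_rw (i : p.H) : NatC E.o E.o (fun _ _ => True) (rw q i) := fun y y' w ζ t _ e η v =>
  (congrArg₂ (· - ·) (natC_tp H.F (H.cut_sub i) (fun _ ht => H.cut_ok H.hb ht i) (fun _ _ => True) y y' w ζ t
    trivial e η v) (by
      simp only [CTh.ev_tot, _root_.sum_apply, _root_.smul_apply, map_sum, map_smul,
        H.natC i _ (fun _ _ => True) y y' w ζ t trivial e η v] : evC ((cu p U δ b).tot q i) y' _ =
          Cnt93.Rh _ _ _ _ w η (evC ((cu p U δ b).tot q i) y v))).trans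
    (map_sub _ _ _).symm

omit H in
/-- the bound for irreducible pieces -/
theorem symR {μ : Ed c → Option U} {P₁ : Set (Reg A)} (ph : PH J σ c p μ) (sp : SplAt J c δ)
    (S : SolE p μ σ q y) (ch : E.Ch δ σ μ y x ψ) (sm : SmC E) (rg : E.Reg q x ψ) (h1 : P₁ ⊆ p.P)
    (h2 : ∀ π ∈ P₁, y.TF π ∨ ¬Red (J.G c y.s).F y.x (W.pc c π)) :
    ((min r 1 + stb y P₁ : ℕ) : ℤ) ≤ dm δ y p (Fintype.card U) ∧
    (Nr E σ μ q y x ψ → ((min r 1 + stb y P₁ : ℕ) : ℤ) = dm δ y p (Fintype.card U) →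
      ∀ (α : Type) (𝒰 : Ultrafilter α) (q' : α → Wi →₀ ℝ) (y' y'' : α → J.Obc c),
        St.Cv (𝒰 : Filter α) q' q →
        (∀ᶠ k in (𝒰 : Filter α), SolE p μ σ (q' k) (y' k) ∧ SolE p μ σ (q' k) (y'' k)) →
        StrOn p 𝒰 y' y → StrOn p 𝒰 y'' y → ∀ᶠ k in (𝒰 : Filter α), EqP p (y' k) (y'' k)) := by
  obtain rfl := ch.hμ
  have H : CS σ E := ⟨⟨ph.ok, ph.mem, ph.pok⟩, ch.ok, ch.ov, sm⟩
  have g := H.th_ok (Adm := fun _ => True) (K := fun _ => False) (d := 0)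
    (fun _ _ _ _ _ _ => id) (fun _ => False.elim) fun _ _ _ => False.elim
  have C := H.cu_ok (fun _ => False) (0 + 2 * r + Module.finrank ℝ (Tq p U) - 2 * n - (min r 1 : ℕ))
  obtain ⟨ξ, c', sy, mb⟩ := sy_ex H ph.pj S ch.rep ch.z h1 h2
  obtain ⟨u, ζ, e, -⟩ := ch.rep.e
  have a := C.ax g
  have k := ker_ext H.F H.cut_sub (k := 8) (by norm_num)
    (Gb54.gmE E.o H.F (k := 8) (by norm_num) r H.ee.hdy) (e := EC.tot b p U δ) (σ := rw)
    (f := g.Q.F ()) (fun _ _ => rfl) (A := fun q i => (C.ext g).T () i q) (fun _ _ _ => rfl)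
    (g.repF ()) (fun q i => ⟨a.smT () i q, C.T_pt g q () i⟩) (fun w => (g.repτ () w).1)
    (fun w i => a.smσ () i w) (fun q => (H.th (fun _ => False) 0).tot_mem (natS _ _ n _ _)
      ((H.nat_e H.hb).natP H.F E.o E.o fun _ _ => True)
      (fun w => (H.nat_τ H.hb w).natP H.F E.o E.o fun _ _ => True) q) (fun _ => nat_rw H)
    (zx H S.toSolOn ch.rep) (H.free S.toSolOn ch.rep.s e S.fr)
    (Gb54.slc_gmE H.F _ x _ (H.sm.aff.tot H.F H.sm.sm q) (sp.ch _ _ _ _ _ _ _ _ _ q ph S.ov ch))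
    (Gb54.tan_gmE H.F _ _ x) (fun i => by
      have := C.fred g q () i x
      rwa [C.T_pt] at this) (by
      have := (H.reg_iff g x ψ).2 rg
      unfold Prob.Reg at this
      rwa [funext ((C.ext g).F_eq () q)] at this) sy mb
  have d : ix δ y p.P p.P' + 2 * r + Module.finrank ℝ (Tq p U) - 2 * n - (min r 1 : ℕ) -
      2 * Fintype.card p.H = dm δ y p (Fintype.card U) := by
    rw [dm, Module.finrank_prod, Module.finrank_fintype_fun_eq_card,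
      Module.finrank_fintype_fun_eq_card, ← Nat.card_eq_fintype_card (α := p.V),
      ← Nat.card_eq_fintype_card (α := p.H), Nat.card_coe_set_eq, Nat.card_coe_set_eq]
    push_cast
    ring
  rw [d, Module.finrank_fin_fun] at k
  refine ⟨k.1, fun nr e α 𝒰 q' y' y'' cv s t' t'' => ?_⟩
  obtain ⟨V, hV, k⟩ := k.2 e α 𝒰 q' cv
  filter_upwards [k, s, nr α 𝒰 q' y' cv (s.mono fun _ => And.left) t' V hV,
    nr α 𝒰 q' y'' cv (s.mono fun _ => And.right) t'' V hV] with j k s ⟨x₁, ψ₁, a₁, R₁⟩ ⟨x₂, ψ₂, a₂, R₂⟩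
  exact eqP H s.1.toSolOn s.2.toSolOn R₁ R₂
    (k _ _ _ _ a₁ a₂ (zx H s.1.toSolOn R₁) (zx H s.2.toSolOn R₂))

omit H in
/-- **P-SYM** -/
theorem sym : Sym J c := fun _ _ _ _ _ _ _ _ _ _ _ _ _ ph sp S ch sm rg h1 h2 =>
  symR ph sp S ch sm rg h1 fun π k => (h2 π k).imp_right (mt fun e =>
    have hπ := ph.pok.pc π (h1 k)
    .inl (Kit16.lin_of_red S.adm.conn (Cyl58.isClopen_pc _ hπ).2 (Cyl58.isConnected_pc _ hπ).2 e))

end Crest.Agent.X212.Sym93
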