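import Crest.Agent.X212.Ker54.Main
import Crest.Agent.X212.An.Ext

/-! Symmetries of a regular zero of a map with linear rows: the format free part. -/

set_option autoImplicit false
set_option linter.unusedSectionVars false
noncomputable section
open Set Filter Topology Function
open scoped ContDiff InnerProductSpace

namespace Crest.Agent.X212.Sym93
open An Slc61 Fred93 Ker54

variable {C Y L H K W h : Type} [NormedAddCommGroup C] [NormedSpace ℝ C] [CompleteSpace C]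
  [NormedAddCommGroup Y] [NormedSpace ℝ Y] [CompleteSpace Y] [NormedAddCommGroup L]
  [NormedSpace ℝ L] [CompleteSpace L] [NormedAddCommGroup H] [NormedSpace ℝ H] [CompleteSpace H]
  [NormedAddCommGroup K] [NormedSpace ℝ K] [FiniteDimensional ℝ K] [Fintype h]
  {V : h → Type} [∀ i, NormedAddCommGroup (V i)] [∀ i, InnerProductSpace ℝ (V i)]
  [∀ i, CompleteSpace (V i)]

/-- the map with rows -/
def bigF (f : C → Y) (A : ∀ i, C → V i →L[ℝ] V i) (v : C × ∀ i, V i) :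
    Y × (∀ i, V i) × (h → ℝ) := (f v.1, fun i => A i v.1 (v.2 i), fun i => ‖v.2 i‖ ^ 2 - 1)

/-- the symmetries with phases -/
def bigS (J : ∀ i, V i →L[ℝ] V i) (S : (L × K) × C → C) (ρ : ∀ i, L × K → V i →L[ℝ] V i)
    (z : (L × K × (h → ℝ)) × C × ∀ i, V i) : C × ∀ i, V i :=
  (S ((z.1.1, z.1.2.1), z.2.1),
    fun i => phz (J i) (Circle.exp (z.1.2.2 i)) (ρ i (z.1.1, z.1.2.1) (z.2.2 i)))

theorem pr_der (v : C × ∀ i, V i) (i : h) :
    HasStrictFDerivAt (fun u : C × ∀ i, V i => u.2 i) (.proj i ∘L .snd ℝ _ _) v :=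
  (ContinuousLinearMap.proj (R := ℝ) (φ := V) i ∘L .snd ℝ C _).hasStrictFDerivAt

theorem hasF {f : C → Y} {A : ∀ i, C → V i →L[ℝ] V i} {v : C × ∀ i, V i}
    (hf : DifferentiableAt ℝ f v.1) (hA : ∀ i, DifferentiableAt ℝ (A i) v.1) :
    ∃ B : C →L[ℝ] ∀ i, V i, HasFDerivAt (bigF f A)
      ((fderiv ℝ f v.1 ∘L .fst ℝ _ _).prod ((B.coprod (dgl fun i => A i v.1)).prod
        ((ContinuousLinearMap.pi fun i => ((2 : ℝ) • innerSL ℝ (v.2 i)) ∘L .proj i) ∘L .snd ℝ _ _)))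
      v := by
  refine ⟨ContinuousLinearMap.pi fun i => (fderiv ℝ (A i) v.1).flip (v.2 i),
    (hf.hasFDerivAt.comp v hasFDerivAt_fst).prodMk
    ((hasFDerivAt_pi'' fun i => ?_).prodMk (hasFDerivAt_pi'' fun i => ?_))⟩
  · refine ((((hA i).hasFDerivAt).comp v hasFDerivAt_fst).clm_apply (pr_der v i).hasFDerivAt
      ).congr_fderiv (ContinuousLinearMap.ext fun u => ?_)
    simp [add_comm]
  · refine (((pr_der v i).hasFDerivAt.norm_sq).sub_const 1).congr_fderiv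
      (ContinuousLinearMap.ext fun u => ?_)
    simp

theorem cd_bigF {f : C → Y} {A : ∀ i, C → V i →L[ℝ] V i} {v : C × ∀ i, V i}
    (hf : ContDiffAt ℝ ∞ f v.1) (hA : ∀ i, ContDiffAt ℝ ∞ (A i) v.1) :
    ContDiffAt ℝ ∞ (bigF f A) v :=
  have p : ∀ i, ContDiff ℝ ∞ fun u : C × ∀ i, V i => u.2 i := fun i =>
    (ContinuousLinearMap.proj (R := ℝ) (φ := V) i ∘L .snd ℝ C _).contDiff
  (hf.comp v contDiffAt_fst).prodMk ((contDiffAt_pi.2 fun i =>
    ((hA i).comp v contDiffAt_fst).clm_apply (p i).contDiffAt).prodMk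
      (contDiffAt_pi.2 fun i => (((p i).norm_sq ℝ).sub contDiff_const).contDiffAt))

theorem fr_bigF {f : C → Y} {A : ∀ i, C → V i →L[ℝ] V i} {v : C × ∀ i, V i}
    (hf : DifferentiableAt ℝ f v.1) (hA : ∀ i, DifferentiableAt ℝ (A i) v.1) {σ : C →L[ℝ] H} {n : ℤ}
    (h1 : Fr ((fderiv ℝ f v.1).prod σ) n) (h2 : ∀ i, Fr (A i v.1) 0) :
    Fr ((fderiv ℝ (bigF f A) v).prod (σ ∘L .fst ℝ _ _)) (n - Fintype.card h) := by
  obtain ⟨B, hB⟩ := hasF hf hA
  rw [hB.fderiv]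
  let N' : (∀ i, V i) →L[ℝ] h → ℝ :=
    ContinuousLinearMap.pi fun i => ((2 : ℝ) • innerSL ℝ (v.2 i)) ∘L .proj i
  have h3 := (Fr.tri' B h1 (fr_dgl h2)).prod (N' ∘L .snd ℝ _ _)
  let e : (((Y × H) × ∀ i, V i) × (h → ℝ)) ≃L[ℝ] (Y × (∀ i, V i) × (h → ℝ)) × H :=
    { toFun := fun z => ((z.1.1.1, z.1.2, z.2), z.1.1.2)
      invFun := fun z => (((z.1.1, z.2), z.1.2.1), z.1.2.2)
      map_add' := fun _ _ => rfl
      map_smul' := fun _ _ => rfl
      left_inv := fun _ => rfl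
      right_inv := fun _ => rfl
      continuous_toFun := by fun_prop
      continuous_invFun := by fun_prop }
  refine (((Fr.equiv e).comp h3).cast ?_).congr fun u => rfl
  simp only [Module.finrank_fintype_fun_eq_card]
  ring

/-- **Symmetries bound the index**, with rows -/
theorem ext_abs {J : ∀ i, V i →L[ℝ] V i} (hJ : ∀ i v, J i (J i v) = -v) {x₀ : C} {ψ : ∀ i, V i}
    (hψ : ∀ i, ψ i ≠ 0) {d : L →L[ℝ] C} {σ : C →L[ℝ] H} (hb : Bijective (σ.comp d))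
    {S : (L × K) × C → C} {P : K →L[ℝ] C}
    (hS : HasStrictFDerivAt S ((d.coprod P).coprod (.id ℝ C)) (0, x₀)) (h0 : S (0, x₀) = x₀)
    {ρ : ∀ i, L × K → V i →L[ℝ] V i} (hρ : ∀ i, ∃ ρ', HasStrictFDerivAt (𝕜 := ℝ) (ρ i) ρ' 0)
    (ρ0 : ∀ i v, ρ i 0 v = v) (hi : ∀ s ξ, P s = d ξ → s = 0)
    {f : (W →₀ ℝ) → C → Y} {f0 : C → Y} {τ : W → C → Y}
    (hf : ∀ q v, f q v = f0 v + q.sum fun w c => c • τ w v)
    {A : (W →₀ ℝ) → ∀ i, C → V i →L[ℝ] V i} {A0 : ∀ i, C → V i →L[ℝ] V i}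
    {T : W → ∀ i, C → V i →L[ℝ] V i} (hA : ∀ q i v, A q i v = A0 i v + q.sum fun w c => c • T w i v)
    {q : W →₀ ℝ} (c1 : ContDiffAt ℝ ∞ (f q) x₀) (c2 : ∀ w, ContDiffAt ℝ ∞ (τ w) x₀)
    (c3 : ∀ i, ContDiffAt ℝ ∞ (A q i) x₀) (c4 : ∀ w i, ContDiffAt ℝ ∞ (T w i) x₀) {n : ℤ}
    (h1 : Fr ((fderiv ℝ (f q) x₀).prod σ) n) (h2 : ∀ i, Fr (A q i x₀) 0)
    (hr : Surjective (fderiv ℝ (bigF (f q) (A q)) (x₀, ψ)))
    (hz : ∀ a, bigF (f q) (A q) (bigS J S ρ (a, x₀, ψ)) = 0) :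
    (Module.finrank ℝ K : ℤ) ≤ n - 2 * Fintype.card h ∧
    ((Module.finrank ℝ K : ℤ) = n - 2 * Fintype.card h → ∀ (α : Type) (l : Filter α)
      (qs : α → W →₀ ℝ), St.Cv l qs q → ∃ N ∈ 𝓝 (x₀, ψ), ∃ a : C × (∀ i, V i) → L × K × (h → ℝ),
        ∀ᶠ k in l, ∀ w ∈ N, ∀ w' ∈ N, bigF (f (qs k)) (A (qs k)) (bigS J S ρ (a w, w)) =
          bigF (f (qs k)) (A (qs k)) (bigS J S ρ (a w', w')) →
          bigS J S ρ (a w, w) = bigS J S ρ (a w', w')) := by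
  choose r hr' using hρ
  let d' : L →L[ℝ] C × ∀ i, V i :=
    d.prod (ContinuousLinearMap.pi fun i => (r i).flip (ψ i) ∘L .inl ℝ _ _)
  let P' : K × (h → ℝ) →L[ℝ] C × ∀ i, V i := (P ∘L .fst ℝ _ _).prod
    (ContinuousLinearMap.pi fun i => (r i).flip (ψ i) ∘L .inr ℝ _ _ ∘L .fst ℝ _ _ +
      (ContinuousLinearMap.proj i ∘L .snd ℝ _ (h → ℝ)).smulRight (J i (ψ i)))
  have hd : ∀ ξ, d' ξ = (d ξ, fun i => r i (ξ, 0) (ψ i)) := fun _ => rfl
  have hP : ∀ s, P' s = (P s.1, fun i => r i (0, s.1) (ψ i) + s.2 i • J i (ψ i)) := fun _ => rfl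
  let z₀ : (L × K × (h → ℝ)) × C × ∀ i, V i := (0, x₀, ψ)
  let p0 : (L × K × (h → ℝ)) × C × (∀ i, V i) →L[ℝ] L × K :=
    (ContinuousLinearMap.id ℝ L).prodMap (.fst ℝ K _) ∘L .fst ℝ _ _
  have hS' : HasStrictFDerivAt (bigS J S ρ) ((d'.coprod P').coprod (.id ℝ _)) z₀ := by
    have b1 := HasStrictFDerivAt.comp (g := S) z₀ hS
      (p0.prod (.fst ℝ C _ ∘L .snd ℝ _ _)).hasStrictFDerivAt
    have b2 : ∀ i, HasStrictFDerivAt (fun z => (bigS J S ρ z).2 i)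
        (ContinuousLinearMap.proj i ∘L .snd ℝ _ _ ∘L (d'.coprod P').coprod (.id ℝ _)) z₀ :=
      fun i => by
      have a1 : HasStrictDerivAt (fun s : ℝ => (Circle.exp s : ℂ)) Complex.I 0 := by
        have := ((Complex.ofRealCLM.hasStrictFDerivAt (x := (0 : ℝ))).hasStrictDerivAt.mul_const
          Complex.I).cexp
        simpa [Circle.coe_exp] using this
      have a2 := HasStrictFDerivAt.comp (g := fun s : ℝ => (Circle.exp s : ℂ)) z₀
        a1.hasStrictFDerivAt (ContinuousLinearMap.proj (R := ℝ) (φ := fun _ : h => ℝ) i ∘L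
          .snd ℝ K _ ∘L .snd ℝ L _ ∘L .fst ℝ _ (C × ∀ i, V i)).hasStrictFDerivAt
      have a3 := (phzL (J i)).hasStrictFDerivAt.comp z₀ a2
      have a4 := HasStrictFDerivAt.comp (g := ρ i) z₀ (hr' i) p0.hasStrictFDerivAt
      have a5 := (ContinuousLinearMap.proj (R := ℝ) (φ := V) i ∘L .snd ℝ C _ ∘L
        .snd ℝ (L × K × (h → ℝ)) _).hasStrictFDerivAt (x := z₀)
      refine (a3.clm_apply (a4.clm_apply a5)).congr_fderiv (ContinuousLinearMap.ext fun u => ?_)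
      have e : r i (u.1.1, u.1.2.1) = r i (u.1.1, 0) + r i (0, u.1.2.1) := by
        rw [← map_add, Prod.mk_add_mk, add_zero, zero_add]
      have e0 : ∀ v, ρ i (0, 0) v = v := ρ0 i
      simp [z₀, p0, hd, hP, phzL_apply, phz_apply, e0, Prod.map, e]
      abel
    refine (b1.prodMk (hasStrictFDerivAt_pi'' (Φ' := .snd ℝ _ _ ∘L (d'.coprod P').coprod (.id ℝ _))
      b2)).congr_fderiv (ContinuousLinearMap.ext fun u => Prod.ext ?_ rfl)
    rfl
  have h0' : bigS J S ρ z₀ = (x₀, ψ) := Prod.ext h0 (funext fun i => by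
    show phz (J i) (Circle.exp 0) (ρ i 0 (ψ i)) = _
    rw [ρ0, Circle.exp_zero, Circle.coe_one, phz_one]; rfl)
  have hc := cd_bigF (v := (x₀, ψ)) c1 c3
  have h4 := comp_zero hS' h0' (hc.differentiableAt (by simp)).hasFDerivAt hz
  obtain ⟨h5, h6⟩ := lin_le (d := d') (σ := σ ∘L .fst ℝ _ _) hb hr (fr_bigF (v := (x₀, ψ))
    (c1.differentiableAt (by simp)) (fun i => (c3 i).differentiableAt (by simp)) h1 h2) h4
    fun s ξ e => by
      have e1 := hi s.1 ξ (congrArg Prod.fst e)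
      have e2 : ξ = 0 := hb.1 (by
        rw [map_zero, ContinuousLinearMap.comp_apply, ← show P s.1 = d ξ from congrArg Prod.fst e,
          e1, map_zero, map_zero])
      refine Prod.ext e1 (funext fun i => ?_)
      have e3 : r i (0, s.1) (ψ i) + s.2 i • J i (ψ i) = r i (ξ, 0) (ψ i) :=
        congrFun (congrArg Prod.snd e) i
      rw [e1, e2, add_eq_left, smul_eq_zero] at e3
      refine e3.resolve_right fun k => hψ i ?_
      rw [← neg_eq_zero, ← hJ, k, map_zero]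
  rw [Module.finrank_prod, Module.finrank_fintype_fun_eq_card, Nat.cast_add] at h5 h6
  refine ⟨by linarith, fun e α l qs hq => ?_⟩
  obtain ⟨⟨π, hπ⟩, h7⟩ := h6 (by linarith)
  refine orb_q hS' h0' (F := fun q => bigF (f q) (A q)) (F0 := bigF f0 A0)
    (τ := fun w v => (τ w v.1, fun i => T w i v.1 (v.2 i), 0)) (fun q v => ?_) hc (fun w => ?_) hr
    h4 π hπ h7 hq
  · refine Prod.ext ?_ (Prod.ext (funext fun i => ?_) ?_)
    · simp [bigF, hf, Finsupp.sum, Prod.fst_sum]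
    · simp [bigF, hA, Finsupp.sum, Prod.fst_sum, Prod.snd_sum]
    · simp [bigF, Finsupp.sum, Prod.snd_sum]
  · have := cd_bigF (v := (x₀, ψ)) (c2 w) (c4 w)
    exact this.fst.prodMk (this.snd.fst.prodMk contDiffAt_const)

end Crest.Agent.X212.Sym93
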