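import Crest.Agent.X212.Pte3.Defs

/-!
# Row 212, P-SYM: the statement
-/

set_option autoImplicit false
set_option linter.unusedSectionVars false
noncomputable section
open scoped Manifold ContDiff Topology InnerProductSpace
open MeasureTheory Set Function Filter

namespace Crest.Agent.X212.Sym93
open An M Nd18 Mod61 Nk89 Cht98 Rf65
open An.Job (StrOn)

variable {Wi : Type} {X : Mf 4} {A κ lam : Type} [Fintype A] [Fintype κ] [Fintype lam]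
  [DecidableEq lam] {M : Mark X A κ} {W : World M} {N : ML M lam} {Λ : Lns W N}
  {A' h : Type} [Fintype A'] [DecidableEq A'] [Fintype h] {r n : ℕ}
  {J : Job Wi Λ A' h r n} {c : M.Cl} {p : Prt A A' h} {U : Type} [Fintype U] {δ : ℝ}

/-- solutions near `y` are represented near `(x, ψ)` -/
def Nr {b : Bp J c} (E : EC b p U δ) (σ : Cel A') (μ : Ed c → Option U) (q : Wi →₀ ℝ)
    (y : J.Obc c) (x : Pnt E.o r) (ψ : E.K) : Prop :=
  ∀ (α : Type) (𝒰 : Ultrafilter α) (q' : α → Wi →₀ ℝ) (y' : α → J.Obc c),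
    St.Cv (𝒰 : Filter α) q' q → (∀ᶠ k in (𝒰 : Filter α), SolE p μ σ (q' k) (y' k)) →
    StrOn p 𝒰 y' y → ∀ V ∈ 𝓝 ((x.pt 8, ψ) : E.C), ∀ᶠ k in (𝒰 : Filter α),
      ∃ (x' : Pnt E.o r) (ψ' : E.K), (x'.pt 8, ψ') ∈ V ∧ E.RepC (y' k) x' ψ'

variable (J c) in
/-- `Rf65.Sym` for charts with smooth maps; uniqueness for charts that see the solutions nearby -/
def Sym : Prop := ∀ σ p (U : Type) [Fintype U] (μ : Ed c → Option U) (b : Bp J c) δ
  (E : EC b p U δ) q y x ψ (P₁ : Set (Reg A)), PH J σ c p μ → SplAt J c δ → SolE p μ σ q y →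
  E.Ch δ σ μ y x ψ → Pte3.SmC E → E.Reg q x ψ → P₁ ⊆ p.P → (∀ π ∈ P₁, y.TF π ∨ ¬y.TA π) →
  ((min r 1 + stb y P₁ : ℕ) : ℤ) ≤ dm δ y p (Fintype.card U) ∧
  (Nr E σ μ q y x ψ → ((min r 1 + stb y P₁ : ℕ) : ℤ) = dm δ y p (Fintype.card U) →
    ∀ (α : Type) (𝒰 : Ultrafilter α) (q' : α → Wi →₀ ℝ) (y' y'' : α → J.Obc c),
      St.Cv (𝒰 : Filter α) q' q →
      (∀ᶠ k in (𝒰 : Filter α), SolE p μ σ (q' k) (y' k) ∧ SolE p μ σ (q' k) (y'' k)) →
      StrOn p 𝒰 y' y → StrOn p 𝒰 y'' y → ∀ᶠ k in (𝒰 : Filter α), EqP p (y' k) (y'' k))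

end Crest.Agent.X212.Sym93
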