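import Crest.Agent.X212.Sym93.Inf

/-! The symmetries when the base spinor does not vanish at the ends. -/

set_option autoImplicit false
set_option linter.unusedSectionVars false
noncomputable section
open scoped Manifold ContDiff Topology InnerProductSpace
open MeasureTheory Set Function Filter

namespace Crest.Agent.X212.Sym93
open An An.Pre Sob92 Prm93 Mod61 Nd18 Eqv71 Nk89 Ker54 Cyf70
open Grp76 (Nice mA hs_iff Pg_iff)
open Wz78 (nab SA adcL)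
open Rf65 (ParY)

variable {E : Type} [NormedAddCommGroup E] [NormedSpace ℝ E] [FiniteDimensional ℝ E]
  [MeasurableSpace E] [BorelSpace E]
  {HM : Type} [TopologicalSpace HM] {I : ModelWithCorners ℝ E HM} [I.Boundaryless]
  {M : Type} [TopologicalSpace M] [ChartedSpace HM M] [IsManifold I ∞ M]
  [MeasurableSpace M] [T2Space M] [BorelSpace M] [SecondCountableTopology M]
  {κ : Type} [Fintype κ] {lam : Type} [Fintype lam]
  {T : Type} [NormedAddCommGroup T] [NormedSpace ℝ T]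
  {𝔉 : Fam I M (Option κ) lam T} {δ R c : ℝ} {o : Ref 𝔉} {r : ℕ} {K : Set M} {ξ ξ' : M → o.m.A}

theorem Pb.zero : Pb o K fun _ => 0 := by
  simpa using Pb.sum (α := Empty) (f := fun _ => 0) (K := K) (o := o) fun i => i.elim

theorem Pb.add (a : Pb o K ξ) (b : Pb o K ξ') : Pb o K fun x => ξ x + ξ' x := by
  simpa using Pb.sum (f := fun i : Bool => bif i then ξ else ξ') (K := K) (o := o)
    fun | true => a | false => b

theorem Pb.smul (a : Pb o K ξ) (c : ℝ) : Pb o K (c • ξ) :=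
  ⟨Cb_smul (Cb_const c) a.cb, fun x => (map_smul _ _ _).trans (congrArg _ (a.mem x)),
    fun t ht b x hx => (Wz78.nab_csmul b c (Cb.sm a.cb x)).trans (by rw [a.par t ht b x hx, smul_zero])⟩

theorem Pb.inf' (h : 𝔉.OK) (hK : IsCompact K) (a : Pb o K ξ) (y : Pnt o r)
    (h0 : ∀ x ∉ K, opL (ξ x) (o.Φ0 x) + c • o.m.J (o.Φ0 x) = 0) : Inf y ξ c := by
  have nφ := ((hs_iff h).1 y.hφ).1
  have n : ∀ b, Nice 𝔉.F0.toPre (n0 y ξ b) := fun b => by
    rw [show n0 y ξ b = fun x => nab I 𝔉.F0.e (o.m.adW (o.A y.t)) b ξ x +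
      adcL (opL (Grp76.pj _ b (y.α x))) (ξ x) from funext fun x => by
        simp only [n0, nab, Md.adW, ← Wz78.adcL_apply, map_add, _root_.add_apply, add_assoc]; rfl]
    exact (Nice.of_hcs (Cb.sm (Cb_add (Cb_D a.cb b) (Cb_app (Cb_clm adcL (o.cAt y.t b)) a.cb)))
      (.intro hK (a.par _ y.ht b))).add (((((hs_iff h).1 y.hα).1.clm _).clm (adcL ∘L opL)).bil'
        (.id ℝ _) a.cb)
  refine ⟨a.cb, a.mem, fun b => ?_, ?_⟩
  · rw [show nab I _ _ b ξ = _ from funext fun x => nab_W h ((Pg_iff h x _).1 (a.mem x)).1 b]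
    exact Nice.sum _ fun l => (n l).bil (ContinuousLinearMap.lsmul ℝ ℝ) ((h.sS b l).cb _ y.ht)
  · refine (congrArg _ (funext fun x => ?_)).mp ((Nice.of_hcs (Cb.sm (Cb_add (Cb_app (Cb_clm opL
      a.cb) o.cΦ) (Cb_clm (c • o.m.J) o.cΦ))) (.intro hK h0)).add
        ((nφ.app (Cb_clm opL a.cb)).add (nφ.clm (c • o.m.J))))
    simp only [map_add, smul_add, _root_.smul_apply, Pi.add_apply]
    abel

variable (X : Ends 𝔉 δ) (hl : X.Lit o R)
include hl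

theorem sum_ex {S : Type} [Fintype S] {j : S → X.A} (hj : Injective j)
    (f : ∀ i, (X.P (j i)).Y.M → o.m.A) (i : S) {z} (hz : z ∈ (X.P (j i)).H (R + 1)) :
    ∑ i', ex (X.P (j i')) R (f i') ((X.P (j i)).K.ψ z) = f i z.1 := by
  have k : X.R < (X.P (j i)).sg * z.2 := (hl.le.trans (lt_add_one R).le).trans_lt hz
  rw [Finset.sum_eq_single i (fun i' _ ne => ex_off fun e => disjoint_left.1 (X.dis (hj.ne ne))
    (End.U_mono _ hl.le e) ((X.okP _).ψ_mem le_rfl k)) (by simp), ex_ψ ((X.okP _).src k.le),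
    End.θZ, hc_one hz.le, one_smul]

/-- the circle is compensated on the ends -/
theorem fix_ex {t₀ : T} (h0 : t₀ ∈ 𝔉.Q) {f : ∀ a, (X.P a).Y.M → o.m.A}
    (hf : ∀ a, f a = 0 ∨ X.Act a ∧ ∀ t ∈ 𝔉.Q, ParY (X.P a).D ((X.P a).sl o (R + 1) t) (f a))
    (e : ∀ a w, opL (f a w) (o.Φ0 ((X.P a).pt (R + 1) w)) = o.m.J (o.Φ0 ((X.P a).pt (R + 1) w))) :
    ∃ ξ, Pb o (⋃ a, (X.P a).U (R + 1))ᶜ ξ ∧
      ∀ x ∉ (⋃ a, (X.P a).U (R + 1))ᶜ, opL (ξ x) (o.Φ0 x) + o.m.J (o.Φ0 x) = 0 := by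
  refine ⟨_, (Pb.sum fun a => (hf a).elim (fun k => ?_) fun k => pb_ex X hl k.1 h0 k.2).smul (-1),
    fun x hx => ?_⟩
  · rw [k, map_zero]; exact Pb.zero
  obtain ⟨a, k⟩ := mem_iUnion.1 (not_not.1 hx)
  obtain ⟨z, hz, rfl⟩ := (X.okP a).exists_ψ k
  rw [Pi.smul_apply, sum_ex X hl (j := fun a => a) injective_id f a hz,
    ((hl.lit a).at h0 ((lt_add_one R).trans hz)).2.2.2.2, map_smul, _root_.smul_apply, e]
  simp

/-- **the symmetries** -/
theorem exists_sy2 (y : Pnt o r) {S : Type} [Fintype S] {j : S → X.A}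
    (hj : Injective j) (act : ∀ i, X.Act (j i)) {L : S → Type} [∀ i, AddCommGroup (L i)]
    [∀ i, Module ℝ (L i)] {ζ : ∀ i, L i →ₗ[ℝ] (X.P (j i)).Y.M → o.m.A} (hζ : ∀ i, Injective (ζ i))
    (par : ∀ i s, ∀ t ∈ 𝔉.Q, ParY (X.P (j i)).D ((X.P (j i)).sl o (R + 1) t) (ζ i s))
    (z0 : ∀ i w, o.Φ0 ((X.P (j i)).pt (R + 1) w) = 0)
    (irr : ∀ i, ∀ x ∈ (X.P (j i)).U X.R, (∃ x' ∈ connectedComponent x, y.cfg.Φ x' ≠ 0) ∨
      ¬Red (𝔉.G y.t).F y.cfg (connectedComponent x)) (L₀ : Submodule ℝ ℝ)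
    (p₀ : Pb o (⋃ a, (X.P a).U (R + 1))ᶜ ξ') (f₀ : L₀ ≠ ⊥ →
      (∀ x ∉ (⋃ a, (X.P a).U (R + 1))ᶜ, opL (ξ' x) (o.Φ0 x) + o.m.J (o.Φ0 x) = 0) ∧
      (y.z = 0 → ¬Fix (𝔉.G y.t).F y.cfg univ)) :
    ∃ (ξ : (L₀ × ∀ i, L i) →ₗ[ℝ] M → o.m.A) (c : (L₀ × ∀ i, L i) →ₗ[ℝ] ℝ),
      Sy y ξ c ∧ ∀ s, Mb o (ξ s) := by
  have H := X.ok
  let c : (L₀ × ∀ i, L i) →ₗ[ℝ] ℝ := L₀.subtype ∘ₗ .fst ℝ _ _
  let ξ : (L₀ × ∀ i, L i) →ₗ[ℝ] M → o.m.A :=
    c.smulRight ξ' + ∑ i, ex (X.P (j i)) R ∘ₗ ζ i ∘ₗ LinearMap.proj i ∘ₗ .snd ℝ _ _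
  have e : ∀ s, ξ s = c s • ξ' + fun x => ∑ i, ex (X.P (j i)) R (ζ i (s.2 i)) x := fun s =>
    funext fun x => by simp [ξ]
  have pb : ∀ s, Pb o (⋃ a, (X.P a).U (R + 1))ᶜ (ξ s) := fun s =>
    e s ▸ (p₀.smul _).add (Pb.sum fun i => pb_ex X hl (act i) y.ht (par i _))
  have ne : ∀ s, c s ≠ 0 → L₀ ≠ ⊥ := fun s k e => k ((Submodule.eq_bot_iff _).1 e _ s.1.2)
  refine ⟨ξ, c, ⟨fun s => (pb s).inf' H (X.cov' _) y fun x hx => ?_, fun s η hη h1 h2 h3 => ?_⟩,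
    fun s => (pb s).mb H (X.cov' _) y.ht⟩
  · have k : ∀ i, opL (ex (X.P (j i)) R (ζ i (s.2 i)) x) (o.Φ0 x) = 0 := fun i => by
      by_cases k : x ∈ (X.P (j i)).U R
      · obtain ⟨z, hz, rfl⟩ := (X.okP _).exists_ψ k
        rw [((hl.lit _).at y.ht hz).2.2.2.2.trans (z0 _ _), map_zero]
      · rw [ex_off k, map_zero]; rfl
    rw [e, Pi.add_apply, Pi.smul_apply, map_add, map_sum, map_smul, _root_.add_apply,
      _root_.sum_apply, Finset.sum_eq_zero fun i _ => k i, add_zero, _root_.smul_apply, ← smul_add]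
    exact smul_eq_zero.2 (or_iff_not_imp_left.2 fun k => (f₀ (ne s k)).1 x hx)
  have C : o.m.IsConn 𝔉.B (𝔉.G y.t) (o.W y.t y.α) := (y.ad0 H).conn
  have hs : Sm I (ξ s - η) := (Cb.sm (pb s).cb).sub ((hs_iff H).1 hη).1.sm
  have hg : ∀ x, (ξ s - η) x ∈ o.m.gS x := fun x => sub_mem ((Pg_iff H x _).1 ((pb s).mem x)).1
    ((Pg_iff H x _).1 (((hs_iff H).1 hη).2 x)).1
  have c0 : c s = 0 := by_contra fun k => (f₀ (ne s k)).2
    ((smul_eq_zero.1 h3).resolve_left (Complex.ofReal_ne_zero.2 k))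
    ⟨(-(c s)⁻¹) • (ξ s - η), ⟨fun x _ => (SA.smul contMDiffAt_const (hs x)).contMDiffWithinAt, 
      fun x _ => Submodule.smul_mem _ _ (hg x), fun a x _ => (Wz78.nab_csmul a _ (hs x)).trans
        (smul_eq_zero_of_right _ (h1 a x))⟩, fun x _ => by
        show opL (-(c s)⁻¹ • (ξ s x - η x)) (o.Φ0 x + y.φ x) = o.m.J (o.Φ0 x + y.φ x)
        rw [map_smul, _root_.smul_apply, eq_neg_of_add_eq_zero_left (h2 x), neg_smul_neg,
          inv_smul_smul₀ k]⟩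
  refine Prod.ext (Subtype.ext c0) (funext fun i => hζ i (funext fun w => ?_))
  have h := X.okP (j i)
  have z : ∀ x ∈ (X.P (j i)).U X.R, (ξ s - η) x = 0 := fun x hx => by
    rcases irr i x hx with ⟨x', k1, k2⟩ | k
    · have k3 := End14.const_cc (h := fun x => ⟪(ξ s - η) x, (ξ s - η) x⟫_ℝ) (𝔉.G y.t).F.toPre
        isClopen_univ (fun z _ => ⟨(SA.inner (hs z) (hs z)).md, fun a => by
          rw [Pre.D_def, Wz78.dv_inner a (Wz78.adW_skw C a z) (hs z) (hs z), h1 a z]; simp⟩)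
        trivial k1
      have k4 := Std94.norm_g_apply H.B (Std94.pmx o.ok x') (hg x') (y.cfg.Φ x')
      have k5 := h2 x'
      rw [c0, zero_smul, add_zero] at k5
      rw [show opL ((ξ s - η) x') (y.cfg.Φ x') = 0 from k5, Grp76.p_Pp H (y.pΦ H x'), norm_zero, eq_comm,
        mul_eq_zero, norm_eq_zero, div_eq_zero_iff, norm_eq_zero, or_iff_left four_ne_zero] at k4
      rw [k4.resolve_right k2, inner_zero_left] at k3
      exact inner_self_eq_zero.1 k3.symm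
    · exact by_contra fun k' => k ⟨_, ⟨hs.contMDiffOn, fun x _ => hg x, fun a x _ => h1 a x⟩, x,
        mem_connectedComponent, k'⟩
  rw [Prod.snd_zero, Pi.zero_apply, map_zero]
  refine norm_le_zero_iff.1 (le_of_forall_pos_le_add fun ε hε => ?_)
  obtain ⟨K, hK, k1⟩ := End14.hs_small H.sup hη hε
  obtain ⟨b, hb⟩ := X.exists_ht hK
  have k2 : max b (R + 1) < (X.P (j i)).sg * ((X.P (j i)).sg * (max b (R + 1) + 1)) := by
    rw [End.sg_sg]; exact lt_add_one _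
  generalize (X.P (j i)).sg * (max b (R + 1) + 1) = t at k2
  have k3 : X.R < (X.P (j i)).sg * t := by linarith [le_max_right b (R + 1), hl.le]
  have k4 := h.ψ_mem (z := (w, t)) le_rfl k3
  have k5 := k1 _ (hb _ _ ⟨k4.1, by rw [h.tm k3.le]; exact (le_max_left _ _).trans_lt k2⟩)
  rw [← sub_eq_zero.1 (z _ k4), e, c0, zero_smul, zero_add, sum_ex X hl hj _ i (z := (w, t))
    ((le_max_right _ _).trans_lt k2)] at k5
  simpa using k5

end Crest.Agent.X212.Sym93
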