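import Crest.Agent.X212.Sym93.Main
import Crest.Agent.X212.Sym93.Ia
import Crest.Agent.X212.Nd18.Fj

/-! Row 212, **A-SYM**. -/

set_option autoImplicit false
set_option linter.unusedSectionVars false
noncomputable section
open scoped Manifold ContDiff Topology InnerProductSpace
open MeasureTheory Set Function Filter

namespace Crest.Agent.X212.Sym93
open An M Nd18 Mod61 Nk89 Cht98 Rf65 Eqv71 Wrd81 Pte3 Fk18
open An.Job (SolOn StrOn)

variable {Wi : Type} {X : Mf 4} {A κ lam : Type} [Fintype A] [Fintype κ] [Fintype lam]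
  [DecidableEq lam] {M : Mark X A κ} {W : World M} {N : ML M lam} {Λ : Lns W N}
  {A' h : Type} [Fintype A'] [DecidableEq A'] [Fintype h] {r n : ℕ}
  {J : Job Wi Λ A' h r n} {c : M.Cl} {σ : Cel A'} {p : Prt A A' h} {U : Type} [Fintype U] {δ : ℝ}
  {b : Bp J c} {E : EC b p U δ} {q : Wi →₀ ℝ} (H : CS σ E) {y : J.Obc c} {x : Pnt E.o r} {ψ : E.K}
include H

/-- **symmetries bound the index of a regular chart** -/
theorem bnd (S : SolOn p σ q y) (fr : Fre p y) (R : E.RepC y x ψ) {d : ℤ}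
    (ix : Idx 8 (EC.tot b p U δ q) x d) (rg : E.Reg q x ψ) {m : ℕ}
    {ξ : (Fin m → ℝ) →ₗ[ℝ] (W.Z c).M → E.o.m.A} {c' : _ →ₗ[ℝ] ℝ} (sy : Sy x ξ c')
    (mb : ∀ s, Ker54.Mb E.o (ξ s)) :
    (m : ℤ) ≤ d + 2 * r - 2 * n - (min r 1 : ℕ) + p.V.ncard + Fintype.card U - 2 * p.H.ncard := by
  have g := H.th_ok (Adm := fun _ => True) (K := fun _ => False) (d := 0)
    (fun _ _ _ _ _ _ => id) (fun _ => False.elim) fun _ _ _ => False.elim
  have C := H.cu_ok (fun _ => False) (0 + 2 * r + Module.finrank ℝ (Tq p U) - 2 * n - (min r 1 : ℕ))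
  obtain ⟨u, ζ, e, -⟩ := R.e
  have a := C.ax g
  have k := (ker_ext H.F H.cut_sub (k := 8) (by norm_num)
    (Gb54.gmE E.o H.F (k := 8) (by norm_num) r H.ee.hdy) (e := EC.tot b p U δ) (σ := rw)
    (f := g.Q.F ()) (fun _ _ => rfl) (A := fun q i => (C.ext g).T () i q) (fun _ _ _ => rfl)
    (g.repF ()) (fun q i => ⟨a.smT () i q, C.T_pt g q () i⟩) (fun w => (g.repτ () w).1)
    (fun w i => a.smσ () i w) (fun q => (H.th (fun _ => False) 0).tot_mem (natS _ _ n _ _)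
      ((H.nat_e H.hb).natP H.F E.o E.o fun _ _ => True)
      (fun w => (H.nat_τ H.hb w).natP H.F E.o E.o fun _ _ => True) q) (fun _ => nat_rw H)
    (zx H S R) (H.free S R.s e fr)
    (Gb54.slc_gmE H.F _ x _ (H.sm.aff.tot H.F H.sm.sm q) ix)
    (Gb54.tan_gmE H.F _ _ x) (fun i => by
      have := C.fred g q () i x
      rwa [C.T_pt] at this) (by
      have := (H.reg_iff g x ψ).2 rg
      unfold Prob.Reg at this
      rwa [funext ((C.ext g).F_eq () q)] at this) sy mb).1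
  rw [Module.finrank_prod, Module.finrank_fintype_fun_eq_card, Module.finrank_fintype_fun_eq_card,
    Module.finrank_fintype_fun_eq_card, ← Nat.card_eq_fintype_card (α := p.V),
    ← Nat.card_eq_fintype_card (α := p.H), Nat.card_coe_set_eq, Nat.card_coe_set_eq,
    Fintype.card_fin] at k
  push_cast at k ⊢
  linarith

theorem same_sl (S : SolOn p σ q y) (R : E.RepC y x ψ) {i : Ed c} (hi : i ∈ EdP c p.P) :
    SameT (J.xs i.1).D.Z (cy ((en E i).sl E.o (E.R + 1) x.t)) univ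
      (J.xs i.1).D.Z (cy (y.β i.1 i.2)) univ :=
  have hD := (H.ok.xs i.1).1.yd
  let ⟨a, _, _, e⟩ := lim_eqv H S R hi
  ceq_same (lg_refl hD.B hD.G isOpen_univ) (inv_refl isOpen_univ) (ad0 (adm_sl H i x.ht).adm)
    (ad0 a.adm) e

omit H in
theorem fx_par {S : Xs Wi κ lam} {β} (k : S.D.Fx β) :
    ∃ f, ParY S.D β f ∧ ∀ w, opL (f w) (β.Φ w) = β.m.J (β.Φ w) :=
  let ⟨_, f1, f2⟩ := k
  ⟨_, Clr59.par_slice (contMDiffOn_univ.1 f1.sm) (fun z => f1.mem z trivial)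
    (fun a z => f1.par a z trivial) 0, fun w => f2 (w, 0) trivial⟩

theorem par_no {i : Ed c} (hi : i ∈ EdP c p.P) (k : E.μ i = none) {ξ : (J.xs i.1).Y.M → E.o.m.A}
    (a : ParY (J.xs i.1).D ((en E i).sl E.o (E.R + 1) x.t) ξ) (t : Tq p U)
    (ht : t ∈ (b.F p U δ).Q) : ParY (J.xs i.1).D ((en E i).sl E.o (E.R + 1) t) ξ := by
  have e := H.eo.mov i hi
  have l := e _ ht
  unfold EC.lim at l
  rw [show E.lm i t = E.lm i x.t by simp [EC.lm, k]] at l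
  exact par_fix (H.ok.xs i.1).1.yd (adm_sl H i x.ht) (adm_sl H i ht) (e _ x.ht) l a

theorem mem_pc {i : Ed c} {π : Reg A} (hπ : M.sys.Piece c.1 π) (k : π i.1 = some i.2) {z}
    (hz : z ∈ (H.ee.P i).U H.ee.R) : z ∈ W.pc c π :=
  un_one _ c π ▸ H.ok.end_sub (t := J.Θ b.s) ⟨i.1.2.2, b.br, b.O, i.1.2.1⟩ (P := {π})
    (fun _ e => e ▸ hπ) ⟨π, rfl, k⟩ hz.1

theorem zr_off {i : Ed c} (hi : i ∉ EdP c p.P') (w) : E.o.Φ0 ((en E i).pt (E.R + 1) w) = 0 := by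
  refine ind_off (E.o.pos _) fun k => hi ?_
  obtain ⟨π, h1, h2⟩ := mem_un.1 k
  have := M.con
  obtain ⟨π', h3, h4⟩ := (Sys.existsUnique_adj c.2 i.1.2.1 i.2).exists
  have h5 := mem_pc H h3 h4 ((H.ee.okP i).ψ_mem (z := (w, (en E i).sg * (E.R + 1))) le_rfl
    ((H.lit.le.trans_lt (lt_add_one _)).trans_eq (End.sg_sg _ _).symm))
  exact ⟨π, h1, Cyl58.pc_unique _ h3 (H.pok.pc π (H.pok.sub h1)) h5 h2 ▸ h4⟩

theorem zr_lens {a : A} (hW : ∀ x, WlStmt (J.xs x).D) (m : MJ J c a) (S : SolOn p σ q y)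
    (R : E.RepC y x ψ) {i : Ed c} (k : i ∈ EdP c p.P) (k' : i.1.1 ≠ a) (w) :
    E.o.Φ0 ((en E i).pt (E.R + 1) w) = 0 := by_contra fun z =>
  let ⟨_, _, e⟩ := (same_sl H S R k).sp.1 ⟨(w, 0), trivial, z⟩
  e (((hW i.1 _ 0 (H.ok.xs i.1).1.yd (m.nil _ k').1 (m.py _ i.1.2 k')).1 _
    (S.crit _ i.1.2 _ k)).zr _)

theorem fix_sl {a : A} (hW : ∀ x, WlStmt (J.xs x).D) (m : MJ J c a) (S : SolOn p σ q y)
    (R : E.RepC y x ψ) (μ : ∀ i, E.μ i = none)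
    (hP : ∀ b, (∃ π ∈ p.P', π a = some b) → (J.xs a).D.Fx (y.β a b)) (i : Ed c) :
    ∃ f : (J.xs i.1).Y.M → E.o.m.A, (f = 0 ∨ H.ee.Act i ∧ ∀ t ∈ (b.F p U δ).Q,
      ParY (J.xs i.1).D ((en E i).sl E.o (E.R + 1) t) f) ∧ ∀ w,
      opL (f w) (E.o.Φ0 ((en E i).pt (E.R + 1) w)) = E.o.m.J (E.o.Φ0 ((en E i).pt (E.R + 1) w)) := by
  have z0 : ∀ {f} {v : E.o.m.V}, v = 0 → opL f v = E.o.m.J v := fun e => by
    rw [e, map_zero, map_zero]
  by_cases k : i ∈ EdP c p.P'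
  swap
  · exact ⟨0, .inl rfl, fun w => z0 (zr_off H k w)⟩
  have k' : i ∈ EdP c p.P := let ⟨π, k1, k2⟩ := k; ⟨π, H.pok.sub k1, k2⟩
  by_cases ka : i.1.1 = a
  swap
  · exact ⟨0, .inl rfl, fun w => z0 (zr_lens H hW m S R k' ka w)⟩
  subst ka
  obtain ⟨f, f1, f2⟩ := fx_par ((same_sl H S R k').fix.2 (hP _ k))
  exact ⟨f, .inr ⟨(H.act_iff H.eo.d0 H.eo.d1).2 k', par_no H k' (μ i) f1⟩, f2⟩

omit H in
/-- **A-SYM** -/
theorem syA (hW : ∀ x, WlStmt (J.xs x).D) (a : A) : SyA J c a := by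
  intro m σ p δ q y d pg S I ⟨b, E, x, ψ, C, rg⟩
  have H : CS σ E := ⟨pg, C.ga.ok, C.ga.ov, C.sm⟩
  have R := C.rep
  have μ : ∀ i, E.μ i = none := fun i => Subsingleton.elim _ _
  obtain ⟨u, ζ, e, -⟩ := R.e
  let L : Set (Ed c) := {i ∈ EdP c p.P | i.1.1 ≠ a}
  have : Fintype L := Fintype.ofFinite _
  let P := (r ≠ 0 ∨ ∃ π ∈ p.P', ¬FixP y π) ∧
    ∀ b, (∃ π ∈ p.P', π a = some b) → (J.xs a).D.Fx (y.β a b)
  obtain ⟨ξ₀, p₀, f₀⟩ : ∃ ξ, Pb E.o (⋃ i, (H.ee.P i).U (E.R + 1))ᶜ ξ ∧ (P →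
      ∀ z ∉ (⋃ i, (H.ee.P i).U (E.R + 1))ᶜ, opL (ξ z) (E.o.Φ0 z) + E.o.m.J (E.o.Φ0 z) = 0) := by
    by_cases hP : P
    · choose f f1 f2 using fix_sl H hW m S.toSolOn R μ hP.2
      exact (fix_ex H.ee H.lit x.ht f1 f2).imp fun _ k => ⟨k.1, fun _ => k.2⟩
    · exact ⟨_, Pb.zero, fun k => (hP k).elim⟩
  classical
  obtain ⟨ξ, c', k1, k2⟩ := exists_sy2 H.ee H.lit x (j := Subtype.val) (S := L)
    Subtype.val_injective (fun i => (H.act_iff H.eo.d0 H.eo.d1).2 i.2.1)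
    (L := fun i => Clr59.parS (J.xs i.1.1).D ((en E i.1).sl E.o (E.R + 1) x.t))
    (ζ := fun i => Submodule.subtype _) (fun i => Subtype.val_injective)
    (fun i s => par_no H i.2.1 (μ _) s.2) (fun i => zr_lens H hW m S.toSolOn R i.2.1 i.2.2)
    (fun ⟨i, ⟨π, k3, k4⟩, _⟩ z hz => by
      have hπ := H.pok.pc π k3
      have k := H.same S.toSolOn R.s e k3
      rw [cc_pc hπ (mem_pc H hπ k4 hz)]
      exact (em _).imp (fun k' => k.sp.1 (I.sp π k')) fun k' e => I.ir π k3 k' (.inl (Kit16.lin_of_red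
        S.adm.conn (Cyl58.isClopen_pc _ hπ).2 (Cyl58.isConnected_pc _ hπ).2 (k.red.2 e))))
    (if P then ⊤ else ⊥) p₀ fun k => by
      have hP : P := by_contra fun k' => k (if_neg k')
      refine ⟨f₀ hP, fun z ⟨η, g1, g2⟩ => hP.1.elim (fun k => ?_) fun ⟨π, k3, k4⟩ => k4
        ((H.same S.toSolOn R.s e (H.pok.sub k3)).fix.2 ⟨η, ⟨g1.sm.mono (subset_univ _),
          fun z _ => g1.mem z trivial, fun a z _ => g1.par a z trivial⟩, fun z _ => g2 z trivial⟩)⟩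
      simpa [z] using (H.nz S.toSolOn R.s e).resolve_left k
  have := fun i : L => have := J.conn_xs i.1.1
    fin_par (H.ok.xs i.1.1).1.yd (adm_sl H i.1 x.ht)
  let l := LinearEquiv.ofFinrankEq (R := ℝ) (Fin (Fk18.sym a p y) → ℝ)
    ((if P then ⊤ else ⊥ : Submodule ℝ ℝ) ×
      ∀ i : L, Clr59.parS (J.xs i.1.1).D ((en E i.1).sl E.o (E.R + 1) x.t)) (by
      rw [Module.finrank_prod, Module.finrank_fin_fun, Module.finrank_pi_fintype, Fk18.sym,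
        ← finsum_set_coe_eq_finsum_mem]
      refine congrArg₂ _ ?_ ((finsum_eq_sum_of_fintype (α := L) _).trans (Finset.sum_congr rfl
        fun i _ => (dz_sl H S.toSolOn R i.2.1).symm.trans Clr59.dz_def))
      by_cases hP : P
      · rw [if_pos hP, if_pos hP]; simp
      · rw [if_neg hP, if_neg hP]; simp)
  simpa [dmA] using bnd H S.toSolOn S.fre R C.idx rg (ξ := ξ ∘ₗ l.toLinearMap)
    (c' := c' ∘ₗ l.toLinearMap) ⟨fun s => k1.inf _, fun s η a1 a2 a3 a4 =>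
      l.map_eq_zero_iff.1 (k1.2 _ η a1 a2 a3 a4)⟩ fun s => k2 _

end Crest.Agent.X212.Sym93
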